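import Crest.Agent.R232.Scalar

/-! A lazy random walk driven by the jumps, truncation and empirical sampling. -/

namespace Crest.Agent.R232
open Finset

section
variable {V : Type}

/-- positive normalised functionals -/
structure IsExp (E : (V → ℝ) →ₗ[ℝ] ℝ) : Prop where
  mono : ∀ Φ Ψ : V → ℝ, (∀ F, Φ F ≤ Ψ F) → E Φ ≤ E Ψ
  one : E (fun _ => 1) = 1

lemma IsExp.const {E : (V → ℝ) →ₗ[ℝ] ℝ} (hE : IsExp E) (c : ℝ) : E (fun _ => c) = c := by
  have : (fun _ : V => c) = c • (fun _ : V => (1 : ℝ)) := by ext; simp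
  rw [this, map_smul, hE.one]; simp

lemma IsExp.exists_lt {E : (V → ℝ) →ₗ[ℝ] ℝ} (hE : IsExp E) {Φ : V → ℝ} {c : ℝ} (h : E Φ < c) :
    ∃ F, Φ F < c := by
  by_contra h1
  push Not at h1
  have := hE.mono (fun _ => c) Φ h1
  rw [hE.const] at this
  linarith

lemma IsExp.le_aff {E : (V → ℝ) →ₗ[ℝ] ℝ} (hE : IsExp E) {Φ Ψ : V → ℝ} {a b : ℝ}
    (h : ∀ F, Φ F ≤ a + b * Ψ F) : E Φ ≤ a + b * E Ψ := by
  have h1 := hE.mono Φ ((fun _ => a) + b • Ψ) (fun F => by simpa using h F)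
  rwa [map_add, map_smul, hE.const] at h1

lemma IsExp.aff_le {E : (V → ℝ) →ₗ[ℝ] ℝ} (hE : IsExp E) {Φ Ψ : V → ℝ} {a b : ℝ}
    (h : ∀ F, a + b * Ψ F ≤ Φ F) : a + b * E Ψ ≤ E Φ := by
  have h1 := hE.mono ((fun _ => a) + b • Ψ) Φ (fun F => by simpa using h F)
  rwa [map_add, map_smul, hE.const] at h1

lemma IsExp.le_sum {ι : Type} [Fintype ι] {E : (V → ℝ) →ₗ[ℝ] ℝ} (hE : IsExp E) {Φ : V → ℝ}
    {Ψ : ι → V → ℝ} (h : ∀ F, Φ F ≤ ∑ e, Ψ e F) : E Φ ≤ ∑ e, E (Ψ e) := by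
  have h1 := hE.mono Φ (∑ e, Ψ e) (fun F => by simpa [Finset.sum_apply] using h F)
  rwa [map_sum] at h1

/-- Greedy version of the empirical method. -/
lemma maurey {ι : Type} [Fintype ι] {E : (V → ℝ) →ₗ[ℝ] ℝ} (hE : IsExp E) (Φ : ι → V → ℝ)
    {M B ζ : ℝ} (hζ : 0 < ζ) (hζM : ζ ≤ M) (hB : 1 ≤ B) (hΦ0 : ∀ e F, 0 ≤ Φ e F)
    (hΦ : ∀ e F, Φ e F ≤ M) (hι : (Fintype.card ι : ℝ) ≤ Real.exp B) (d : ℕ)
    (hd : 8 * B * M ^ 2 / ζ ^ 2 ≤ d) :
    ∃ F : Fin d → V, ∀ e, |∑ k, Φ e (F k) - d * E (Φ e)| ≤ d * ζ := by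
  have hM : 0 < M := hζ.trans_le hζM
  set β := ζ / (2 * M ^ 2) with hβ
  have hβ0 : 0 < β := by positivity
  have hβM : β * M ≤ 1 := by
    rw [hβ, div_mul_eq_mul_div, div_le_one (by positivity)]; nlinarith
  set x := (β * M) ^ 2 with hx
  have hx0 : 0 < x := by positivity
  have hE0 : ∀ e, 0 ≤ E (Φ e) := fun e => by
    simpa [hE.const] using hE.mono (fun _ => 0) (Φ e) (hΦ0 e)
  have hE1 : ∀ e, E (Φ e) ≤ M := fun e => by
    simpa [hE.const] using hE.mono (Φ e) (fun _ => M) (hΦ e)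
  have hexp : ∀ y : ℝ, |y| ≤ β * M → Real.exp y ≤ 1 + y + x := fun y hy => by
    have h1 := Real.abs_exp_sub_one_sub_id_le (hy.trans hβM)
    have h2 : y ^ 2 ≤ x := by
      rw [← sq_abs y]; exact pow_le_pow_left₀ (abs_nonneg _) hy 2
    linarith [le_abs_self (Real.exp y - 1 - y)]
  have step : ∀ (e : ι) (S : ℝ),
      E (fun F => Real.cosh (β * (S + (Φ e F - E (Φ e))))) ≤ (1 + x) * Real.cosh (β * S) := by
    intro e S
    have h1 : ∀ F, Real.cosh (β * (S + (Φ e F - E (Φ e)))) ≤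
        ((1 + x) * Real.cosh (β * S) - β * Real.sinh (β * S) * E (Φ e)) +
          β * Real.sinh (β * S) * Φ e F := by
      intro F
      have h2 : |β * (Φ e F - E (Φ e))| ≤ β * M := by
        rw [abs_mul, abs_of_pos hβ0]
        refine mul_le_mul_of_nonneg_left (abs_le.mpr ⟨?_, ?_⟩) hβ0.le
        · linarith [hΦ0 e F, hE1 e]
        · linarith [hΦ e F, hE0 e]
      have h3 := hexp _ h2
      have h4 := hexp (-(β * (Φ e F - E (Φ e)))) (by rwa [abs_neg])
      have h5 := mul_le_mul_of_nonneg_left h3 (Real.exp_pos (β * S)).le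
      have h6 := mul_le_mul_of_nonneg_left h4 (Real.exp_pos (-(β * S))).le
      rw [← Real.exp_add] at h5 h6
      rw [Real.cosh_eq, Real.cosh_eq, Real.sinh_eq, mul_add β S, neg_add]
      linarith
    have := hE.le_aff h1
    linarith
  have main : ∀ j : ℕ, ∃ F : Fin j → V,
      ∑ e, Real.cosh (β * (∑ k, Φ e (F k) - j * E (Φ e))) ≤ Real.exp (B + j * x) := by
    intro j
    induction j with
    | zero => exact ⟨fun k => k.elim0, by simpa using hι⟩
    | succ j ih =>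
      obtain ⟨F, hF⟩ := ih
      have h1 := hE.le_sum (Φ := fun G => ∑ e, Real.cosh (β * ((∑ k, Φ e (F k) - j * E (Φ e)) +
        (Φ e G - E (Φ e))))) (Ψ := fun e G => Real.cosh (β * ((∑ k, Φ e (F k) - j * E (Φ e)) +
        (Φ e G - E (Φ e))))) (fun G => le_rfl)
      have h2 := h1.trans (sum_le_sum fun e _ => step e _)
      rw [← mul_sum] at h2
      have h3 : (1 + x) * Real.exp (B + j * x) < Real.exp (B + (j + 1 : ℕ) * x) := by
        have : B + ((j + 1 : ℕ) : ℝ) * x = x + (B + j * x) := by push_cast; ring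
        rw [this, Real.exp_add x]
        exact mul_lt_mul_of_pos_right (by linarith [Real.add_one_lt_exp hx0.ne'])
          (Real.exp_pos _)
      obtain ⟨G, hG⟩ := hE.exists_lt
        ((h2.trans (mul_le_mul_of_nonneg_left hF (by linarith))).trans_lt h3)
      refine ⟨Fin.cons G F, le_trans (le_of_eq ?_) hG.le⟩
      refine sum_congr rfl fun e _ => ?_
      rw [Fin.sum_univ_succ]
      simp only [Fin.cons_zero, Fin.cons_succ]
      congr 2; push_cast; ring
  obtain ⟨F, hF⟩ := main d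
  refine ⟨F, fun e => ?_⟩
  set S := ∑ k, Φ e (F k) - d * E (Φ e) with hS
  have h1 : Real.cosh (β * S) ≤ Real.exp (B + d * x) :=
    le_trans (single_le_sum (f := fun e => Real.cosh (β * (∑ k, Φ e (F k) - d * E (Φ e))))
      (fun e _ => (Real.cosh_pos _).le) (mem_univ e)) hF
  have h2 : Real.exp (β * |S|) ≤ 2 * Real.cosh (β * S) := by
    rw [← Real.cosh_abs, abs_mul, abs_of_pos hβ0, Real.cosh_eq]
    linarith [Real.exp_pos (-(β * |S|))]
  have h3 : Real.exp (β * |S|) ≤ Real.exp (B + (B + d * x)) := by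
    rw [Real.exp_add B (B + d * x)]
    have : 2 ≤ Real.exp B := by linarith [Real.add_one_le_exp B]
    nlinarith [Real.exp_pos (B + d * x)]
  have h4 := Real.exp_le_exp.mp h3
  have h5 : d * x = β * (d * ζ / 2) := by rw [hx, hβ]; field_simp
  have h6 : 2 * B ≤ β * (d * ζ / 2) := by
    rw [div_le_iff₀ (by positivity)] at hd
    rw [hβ, div_mul_eq_mul_div, le_div_iff₀ (by positivity)]
    nlinarith
  have h7 : β * |S| ≤ β * (d * ζ) := by linarith
  exact le_of_mul_le_mul_left h7 hβ0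

end

section
variable {V Θ : Type} [AddCommGroup V] [Fintype Θ]

/-- one step of the walk -/
noncomputable def TT (π : Θ → ℝ) (H : Θ → V) (Z : ℝ) : (V → ℝ) →ₗ[ℝ] (V → ℝ) where
  toFun Φ F := Φ F + Z⁻¹ * ∑ θ, π θ * ((Φ (F + H θ) + Φ (F - H θ)) / 2 - Φ F)
  map_add' Φ Ψ := by
    ext F
    simp only [Pi.add_apply]
    have : ∑ θ, π θ * ((Φ (F + H θ) + Ψ (F + H θ) + (Φ (F - H θ) + Ψ (F - H θ))) / 2 -
        (Φ F + Ψ F)) = ∑ θ, π θ * ((Φ (F + H θ) + Φ (F - H θ)) / 2 - Φ F) +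
        ∑ θ, π θ * ((Ψ (F + H θ) + Ψ (F - H θ)) / 2 - Ψ F) := by
      rw [← sum_add_distrib]; exact sum_congr rfl fun θ _ => by ring
    rw [this]; ring
  map_smul' c Φ := by
    ext F
    simp only [Pi.smul_apply, smul_eq_mul, RingHom.id_apply]
    have : ∑ θ, π θ * ((c * Φ (F + H θ) + c * Φ (F - H θ)) / 2 - c * Φ F) =
        c * ∑ θ, π θ * ((Φ (F + H θ) + Φ (F - H θ)) / 2 - Φ F) := by
      rw [mul_sum]; exact sum_congr rfl fun θ _ => by ring
    rw [this]; ring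

lemma TT_apply (π : Θ → ℝ) (H : Θ → V) (Z : ℝ) (Φ : V → ℝ) (F : V) : TT π H Z Φ F =
    Φ F + Z⁻¹ * ∑ θ, π θ * ((Φ (F + H θ) + Φ (F - H θ)) / 2 - Φ F) := rfl

/-- the law after `j` steps -/
noncomputable def EE (π : Θ → ℝ) (H : Θ → V) (Z : ℝ) (j : ℕ) : (V → ℝ) →ₗ[ℝ] ℝ :=
  LinearMap.proj (0 : V) ∘ₗ (TT π H Z ^ j)

lemma EE_zero (π : Θ → ℝ) (H : Θ → V) (Z : ℝ) (Φ : V → ℝ) : EE π H Z 0 Φ = Φ 0 := by
  simp [EE]

lemma EE_succ (π : Θ → ℝ) (H : Θ → V) (Z : ℝ) (j : ℕ) (Φ : V → ℝ) :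
    EE π H Z (j + 1) Φ = EE π H Z j (TT π H Z Φ) := by
  simp [EE, pow_succ]

lemma isExp_EE {π : Θ → ℝ} (H : Θ → V) {Z : ℝ} (hπ : ∀ θ, 0 ≤ π θ) (hZ : 0 < Z)
    (hπZ : ∑ θ, π θ ≤ Z) (j : ℕ) : IsExp (EE π H Z j) := by
  induction j with
  | zero => exact ⟨fun Φ Ψ h => by simpa [EE_zero] using h 0, by simp [EE_zero]⟩
  | succ j ih =>
    refine ⟨fun Φ Ψ h => ?_, ?_⟩
    · rw [EE_succ, EE_succ]
      refine ih.mono _ _ fun F => ?_
      have e : ∀ Φ : V → ℝ, TT π H Z Φ F = (1 - Z⁻¹ * ∑ θ, π θ) * Φ F +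
          Z⁻¹ * ∑ θ, π θ * ((Φ (F + H θ) + Φ (F - H θ)) / 2) := fun Φ => by
        rw [TT_apply]
        simp only [mul_sub, sum_sub_distrib, ← sum_mul]; ring
      have h1 : 0 ≤ 1 - Z⁻¹ * ∑ θ, π θ := by
        rw [sub_nonneg, inv_mul_le_iff₀ hZ]; linarith
      rw [e, e]
      refine add_le_add (mul_le_mul_of_nonneg_left (h F) h1)
        (mul_le_mul_of_nonneg_left (sum_le_sum fun θ _ => ?_) (by positivity))
      exact mul_le_mul_of_nonneg_left (by linarith [h (F + H θ), h (F - H θ)]) (hπ θ)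
    · rw [EE_succ]
      have : TT π H Z (fun _ => 1) = fun _ => 1 := by ext F; simp [TT_apply]
      rw [this, ih.one]

lemma walk_moment {π : Θ → ℝ} (H : Θ → V) {Z : ℝ} (hπ : ∀ θ, 0 ≤ π θ) (hZ : 0 < Z)
    (hπZ : ∑ θ, π θ ≤ Z) {Φ : V → ℝ} (h0 : Φ 0 = 0) {K C η : ℝ} (hK : 0 ≤ K) (hC : 0 ≤ C)
    (hη : η ≤ 1 / 4) {N : ℕ} (hN : 2 * C * (N / Z) ≤ η)
    (hΦ : ∀ F, |∑ θ, π θ * ((Φ (F + H θ) + Φ (F - H θ)) / 2 - Φ F) - K| ≤
      3 * η * K + C * Φ F) (j : ℕ) (hj : j ≤ N) :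
    |EE π H Z j Φ - j / Z * K| ≤ 4 * η * (j / Z * K) := by
  induction j with
  | zero => simp [EE_zero, h0]
  | succ j ih =>
    have ih := abs_le.mp (ih (by omega))
    have hE := isExp_EE H hπ hZ hπZ j
    have hZi : 0 < Z⁻¹ := inv_pos.mpr hZ
    have h1 : EE π H Z j (TT π H Z Φ) ≤ Z⁻¹ * (K + 3 * η * K) + (1 + Z⁻¹ * C) * EE π H Z j Φ :=
      hE.le_aff fun F => by
        rw [TT_apply]
        nlinarith [mul_le_mul_of_nonneg_left (abs_le.mp (hΦ F)).2 hZi.le]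
    have h2 : Z⁻¹ * (K - 3 * η * K) + (1 - Z⁻¹ * C) * EE π H Z j Φ ≤ EE π H Z j (TT π H Z Φ) :=
      hE.aff_le fun F => by
        rw [TT_apply]
        nlinarith [mul_le_mul_of_nonneg_left (abs_le.mp (hΦ F)).1 hZi.le]
    have h3 : (j : ℝ) / Z ≤ N / Z :=
      div_le_div_of_nonneg_right (by exact_mod_cast (by omega : j ≤ N)) hZ.le
    have h4 : 0 ≤ j / Z * K := by positivity
    have h5 : C * EE π H Z j Φ ≤ η * K := by
      have h6 : EE π H Z j Φ ≤ 2 * (N / Z * K) := by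
        nlinarith [mul_le_mul_of_nonneg_right h3 hK]
      nlinarith [mul_le_mul_of_nonneg_left h6 hC, mul_le_mul_of_nonneg_right hN hK]
    have h6 := mul_le_mul_of_nonneg_left h5 hZi.le
    have e : ((j + 1 : ℕ) : ℝ) / Z * K = j / Z * K + Z⁻¹ * K := by push_cast; ring
    rw [EE_succ, e, abs_le]
    constructor <;> nlinarith

lemma walk_exp {π : Θ → ℝ} (H : Θ → V) {Z : ℝ} (hπ : ∀ θ, 0 ≤ π θ) (hZ : 0 < Z)
    (hπZ : ∑ θ, π θ ≤ Z) {Ψ : V → ℝ} (h0 : Ψ 0 = 1) {W : ℝ} (hW : 0 ≤ W)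
    (hΨ : ∀ F, ∑ θ, π θ * ((Ψ (F + H θ) + Ψ (F - H θ)) / 2 - Ψ F) ≤ W * Ψ F) (j : ℕ) :
    EE π H Z j Ψ ≤ (1 + W / Z) ^ j := by
  induction j with
  | zero => simp [EE_zero, h0]
  | succ j ih =>
    have hE := isExp_EE H hπ hZ hπZ j
    have hZi : 0 < Z⁻¹ := inv_pos.mpr hZ
    have h1 : EE π H Z j (TT π H Z Ψ) ≤ 0 + (1 + W / Z) * EE π H Z j Ψ :=
      hE.le_aff fun F => by
        rw [TT_apply, div_eq_inv_mul W]
        nlinarith [mul_le_mul_of_nonneg_left (hΨ F) hZi.le]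
    rw [EE_succ, pow_succ']
    have := mul_le_mul_of_nonneg_left ih (by positivity : 0 ≤ 1 + W / Z)
    linarith

end

lemma rpow_le_exp_half {p a : ℝ} (hp : 0 < p) (ha : 0 ≤ a) :
    a ^ p ≤ (2 * p) ^ p * Real.exp (a / 2) := by
  have h1 : a / (2 * p) ≤ Real.exp (a / (2 * p)) := by linarith [Real.add_one_le_exp (a / (2 * p))]
  have h2 := Real.rpow_le_rpow (by positivity) h1 hp.le
  rw [← Real.exp_mul, Real.div_rpow ha (by positivity), div_le_iff₀ (by positivity),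
    show a / (2 * p) * p = a / 2 by field_simp] at h2
  linarith

lemma exp_abs_le_cosh (x : ℝ) : Real.exp |x| ≤ 2 * Real.cosh x := by
  rw [← Real.cosh_abs, Real.cosh_eq]
  linarith [Real.exp_pos (-|x|)]

lemma tail_bound {p B t x y : ℝ} (hp : 0 < p) (hB : 0 < B) (hy : t * B < |y|) :
    |x| ^ p ≤ B ^ p * (2 * p) ^ p * Real.exp (-(t / 2)) *
      (Real.cosh (x / B) + Real.cosh (y / B)) := by
  have h1 := rpow_le_exp_half hp (abs_nonneg (x / B))
  have h2 := exp_abs_le_cosh (x / B)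
  have h3 := exp_abs_le_cosh (y / B)
  have h4 : t ≤ |y / B| := by rw [abs_div, abs_of_pos hB, le_div_iff₀ hB]; exact hy.le
  have h5 : |x| ^ p = B ^ p * |x / B| ^ p := by
    rw [← Real.mul_rpow hB.le (abs_nonneg _), abs_div, abs_of_pos hB]; congr 1; field_simp
  set a := |x / B|
  set b := |y / B|
  have h6 : Real.exp (a / 2) ≤ Real.exp (-(t / 2)) * (Real.exp (a / 2) * Real.exp (b / 2)) := by
    rw [← Real.exp_add, ← Real.exp_add]; exact Real.exp_le_exp.mpr (by linarith)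
  have h7 : Real.exp (a / 2) * Real.exp (b / 2) ≤ (Real.exp a + Real.exp b) / 2 := by
    have e1 : Real.exp a = Real.exp (a / 2) ^ 2 := by rw [sq, ← Real.exp_add]; congr 1; ring
    have e2 : Real.exp b = Real.exp (b / 2) ^ 2 := by rw [sq, ← Real.exp_add]; congr 1; ring
    rw [e1, e2]; nlinarith [sq_nonneg (Real.exp (a / 2) - Real.exp (b / 2))]
  have h8 : Real.exp (a / 2) ≤ Real.exp (-(t / 2)) * (Real.cosh (x / B) + Real.cosh (y / B)) :=
    h6.trans (mul_le_mul_of_nonneg_left (by linarith) (Real.exp_pos _).le)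
  rw [h5, mul_assoc, mul_assoc]
  refine mul_le_mul_of_nonneg_left (h1.trans ?_) (by positivity)
  exact mul_le_mul_of_nonneg_left h8 (by positivity)

theorem sample {p η c : ℝ} (hp : 1 ≤ p) (hη : 0 < η) (hη1 : η ≤ 1 / 4) (hc : 1 ≤ c) :
    ∃ ε A : ℝ, 0 < ε ∧ 0 < A ∧ ∀ (V ι Θ : Type) [AddCommGroup V] [Fintype ι] [Fintype Θ]
      (g : ι → V →+ ℝ) (π : Θ → ℝ) (H : Θ → V) (τ : Θ → ι → ℝ) (K B : ℝ), 1 ≤ K → K ≤ B →
      (Fintype.card ι : ℝ) ≤ Real.exp B → (∀ θ, 0 ≤ π θ) →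
      (∀ e, ∑ θ, π θ * |τ θ e| ^ p = K ∧ ∑ θ, (if τ θ e = 0 then 0 else π θ) ≤ c ∧
        ∑ θ, π θ * |g e (H θ) - τ θ e| ^ p ≤ ε * K ∧
        (2 < p → ∑ θ, π θ * (g e (H θ) - τ θ e) ^ 2 ≤ c) ∧ ∀ θ, |g e (H θ)| ≤ B) →
      ∃ (d : ℕ) (F : Fin d → V) (σ : ℝ), 0 < σ ∧ (d : ℝ) ≤ A * B ^ (4 * p + 1) ∧
        ∀ e, |∑ k, |g e (F k)| ^ p - σ| ≤ 6 * η * σ := by
  classical
  obtain ⟨ε, C, hε, hε1, hC, hdr⟩ := drift hp hη (by linarith) hc
  set δ := min (η / (2 * C)) (1 / (2 * c)) with hδ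
  have hδ0 : 0 < δ := lt_min (by positivity) (by positivity)
  have hδ1 : 2 * C * δ ≤ η := by
    have := min_le_left (η / (2 * C)) (1 / (2 * c))
    rw [← hδ, le_div_iff₀ (by positivity)] at this; linarith
  have hδ2 : 2 * c * δ ≤ 1 := by
    have := min_le_right (η / (2 * C)) (1 / (2 * c))
    rw [← hδ, le_div_iff₀ (by positivity)] at this; linarith
  have hδ3 : δ ≤ 1 := by nlinarith
  set ζ := η * δ with hζ
  have hζ0 : 0 < ζ := by positivity
  have hζ1 : ζ ≤ 1 := by nlinarith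
  set a0 := 6 * (2 * p) ^ p / ζ with ha0
  have ha00 : 0 < a0 := by positivity
  set t0 := 2 * (a0 + p + 1) with ht0
  have ht01 : 1 ≤ t0 := by linarith
  refine ⟨ε, 8 * (t0 ^ p) ^ 2 / ζ ^ 2 + 1, hε, by positivity, ?_⟩
  intro V ι Θ _ _ _ g π H τ K B hK hKB hι hπ hmain
  have hB : 1 ≤ B := hK.trans hKB
  have hB0 : 0 < B := by linarith
  obtain ⟨N, hN⟩ := exists_nat_gt (δ * ∑ θ, π θ)
  have hS0 : 0 ≤ ∑ θ, π θ := sum_nonneg fun θ _ => hπ θ
  have hN0 : (0 : ℝ) < N := lt_of_le_of_lt (by positivity) hN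
  set Z := N / δ with hZ
  have hZ0 : 0 < Z := by positivity
  have hπZ : ∑ θ, π θ ≤ Z := by rw [hZ, le_div_iff₀ hδ0]; linarith
  have hNZ : N / Z = δ := by rw [hZ]; field_simp
  have hE := isExp_EE H hπ hZ0 hπZ N
  set E := EE π H Z N with hEdef
  have hp0 : 0 < p := by linarith
  -- moments
  have m1 : ∀ e, |E (fun F => |g e F| ^ p) - δ * K| ≤ 4 * η * (δ * K) := fun e => by
    obtain ⟨h1, h2, h3, h4, -⟩ := hmain e
    have := walk_moment H hπ hZ0 hπZ (Φ := fun F => |g e F| ^ p) (K := K) (C := C) (η := η)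
      (by simp [hp0.ne']) (by linarith) hC.le hη1 (N := N) (by rw [hNZ]; exact hδ1)
      (fun F => by
        have := hdr Θ π (fun θ => g e (H θ)) (fun θ => τ θ e) K hK hπ h1 h2 h3 h4 (g e F)
        simpa only [DD, map_add, map_sub] using this) N le_rfl
    rwa [hNZ] at this
  have m2 : ∀ e, E (fun F => Real.cosh (g e F / B)) ≤ 3 := fun e => by
    obtain ⟨h1, h2, h3, h4, h5⟩ := hmain e
    have hW : ∑ θ, π θ * (Real.cosh (g e (H θ) / B) - 1) ≤ 2 * c := by
      have k1 : ∀ θ, π θ * (Real.cosh (g e (H θ) / B) - 1) ≤ (if τ θ e = 0 then 0 else π θ) +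
          (if 2 < p then π θ * (g e (H θ) - τ θ e) ^ 2
            else B⁻¹ * (π θ * |g e (H θ) - τ θ e| ^ p)) := by
        intro θ
        have hy : |g e (H θ) / B| ≤ 1 := by
          rw [abs_div, abs_of_pos hB0, div_le_one hB0]; exact h5 θ
        have k2 := cosh_sub_one_le hy
        have k3 : Real.exp (1 ^ 2 / 2) ≤ 2 := by
          have := Real.abs_exp_sub_one_le (x := 1 ^ 2 / 2) (by norm_num [abs_of_pos])
          rw [abs_of_pos (by norm_num : (0 : ℝ) < 1 ^ 2 / 2)] at this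
          linarith [le_abs_self (Real.exp (1 ^ 2 / 2) - 1)]
        have k4 : Real.cosh (g e (H θ) / B) - 1 ≤ (g e (H θ) / B) ^ 2 := by
          nlinarith [sq_nonneg (g e (H θ) / B)]
        refine (mul_le_mul_of_nonneg_left k4 (hπ θ)).trans ?_
        have hπθ := hπ θ
        by_cases h0 : τ θ e = 0
        · rw [if_pos h0, h0, sub_zero, zero_add]
          split_ifs with h6
          · refine mul_le_mul_of_nonneg_left ?_ hπθ
            rw [div_pow]
            exact div_le_self (sq_nonneg _) (one_le_pow₀ hB)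
          · rw [mul_left_comm]
            refine mul_le_mul_of_nonneg_left ?_ hπθ
            have k5 : |g e (H θ) / B| ^ (2 : ℝ) ≤ |g e (H θ) / B| ^ p :=
              Real.rpow_le_rpow_of_exponent_ge' (abs_nonneg _) hy hp0.le (by linarith)
            rw [Real.rpow_two, sq_abs, abs_div, abs_of_pos hB0,
              Real.div_rpow (abs_nonneg _) hB0.le] at k5
            refine k5.trans ?_
            rw [← div_eq_inv_mul]
            refine div_le_div_of_nonneg_left (by positivity) hB0 ?_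
            simpa using Real.rpow_le_rpow_of_exponent_le hB hp
        · rw [if_neg h0]
          have k5 : (g e (H θ) / B) ^ 2 ≤ 1 := by
            rw [← sq_abs]; exact pow_le_one₀ (abs_nonneg _) hy
          have k6 : 0 ≤ (if 2 < p then π θ * (g e (H θ) - τ θ e) ^ 2
            else B⁻¹ * (π θ * |g e (H θ) - τ θ e| ^ p)) := by split_ifs <;> positivity
          nlinarith
      refine (sum_le_sum fun θ _ => k1 θ).trans ?_
      rw [sum_add_distrib]
      have k2 : ∑ θ, (if 2 < p then π θ * (g e (H θ) - τ θ e) ^ 2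
            else B⁻¹ * (π θ * |g e (H θ) - τ θ e| ^ p)) ≤ c := by
        split_ifs with h6
        · exact h4 h6
        · rw [← mul_sum, inv_mul_le_iff₀ hB0]
          nlinarith
      linarith
    have k := walk_exp H hπ hZ0 hπZ (Ψ := fun F => Real.cosh (g e F / B)) (by simp)
      (W := 2 * c) (by positivity) (fun F => by
        have e1 : ∑ θ, π θ * ((Real.cosh (g e (F + H θ) / B) + Real.cosh (g e (F - H θ) / B)) / 2
            - Real.cosh (g e F / B)) =
            (∑ θ, π θ * (Real.cosh (g e (H θ) / B) - 1)) * Real.cosh (g e F / B) := by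
          rw [sum_mul]
          refine sum_congr rfl fun θ _ => ?_
          rw [map_add, map_sub, add_div (g e F), sub_div, Real.cosh_add, Real.cosh_sub]; ring
        rw [e1]
        exact mul_le_mul_of_nonneg_right hW (Real.cosh_pos _).le) N
    refine k.trans ?_
    have k1 : (1 + 2 * c / Z) ^ N ≤ Real.exp (2 * c / Z) ^ N :=
      pow_le_pow_left₀ (by positivity) (by linarith [Real.add_one_le_exp (2 * c / Z)]) N
    rw [← Real.exp_nat_mul, show N * (2 * c / Z) = 2 * c * (N / Z) by ring, hNZ] at k1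
    exact k1.trans ((Real.exp_le_exp.mpr hδ2).trans (by linarith [Real.exp_one_lt_d9]))
  -- truncation
  set L := t0 * B * B with hL
  have hL1 : 1 ≤ L := by nlinarith [mul_le_mul ht01 hB zero_le_one (by linarith)]
  set G : V → V := fun F => if ∀ e, |g e F| ≤ L then F else 0 with hG
  have hGL : ∀ e F, |g e (G F)| ≤ L := fun e F => by
    simp only [hG]; split_ifs with h
    · exact h e
    · simp; linarith
  set T := B ^ p * (2 * p) ^ p * Real.exp (-(t0 * B / 2)) with hT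
  have hT0 : 0 < T := by positivity
  have m3 : ∀ e, |E (fun F => |g e (G F)| ^ p) - δ * K| ≤ 5 * η * (δ * K) := fun e => by
    have k1 : E (fun F => |g e (G F)| ^ p) ≤ E (fun F => |g e F| ^ p) := hE.mono _ _ fun F => by
      simp only [hG]; split_ifs with h
      · exact le_rfl
      · simp [hp0.ne']; positivity
    have k2 : E ((fun F => |g e F| ^ p) - fun F => |g e (G F)| ^ p) ≤
        ∑ e', E (T • ((fun F => Real.cosh (g e F / B)) + fun F => Real.cosh (g e' F / B))) := by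
      refine hE.le_sum fun F => ?_
      simp only [Pi.sub_apply, Pi.smul_apply, Pi.add_apply, smul_eq_mul, hG]
      have k3 : ∀ e', 0 ≤ T * (Real.cosh (g e F / B) + Real.cosh (g e' F / B)) := fun e' =>
        mul_nonneg hT0.le (add_pos (Real.cosh_pos _) (Real.cosh_pos _)).le
      split_ifs with h
      · rw [sub_self]; exact sum_nonneg fun e' _ => k3 e'
      · push Not at h
        obtain ⟨e', he'⟩ := h
        refine le_trans ?_ (single_le_sum (fun e' _ => k3 e') (mem_univ e'))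
        have := tail_bound (x := g e F) hp0 hB0 he'
        simpa [hp0.ne'] using this
    simp only [map_sub, map_smul, map_add, smul_eq_mul] at k2
    have k3 : ∑ e', T * (E (fun F => Real.cosh (g e F / B)) +
        E (fun F => Real.cosh (g e' F / B))) ≤ ∑ _e' : ι, T * 6 :=
      sum_le_sum fun e' _ => mul_le_mul_of_nonneg_left (by linarith [m2 e, m2 e']) hT0.le
    rw [sum_const, card_univ, nsmul_eq_mul] at k3
    have k4 : (Fintype.card ι : ℝ) * (T * 6) ≤ ζ := by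
      have j1 : B ^ p ≤ Real.exp (B * p) := by
        rw [Real.exp_mul]
        exact Real.rpow_le_rpow hB0.le (by linarith [Real.add_one_le_exp B]) hp0.le
      have j2 : a0 ≤ Real.exp (a0 * B) := by
        linarith [Real.add_one_le_exp (a0 * B), mul_le_mul_of_nonneg_left hB ha00.le]
      have j3 : Real.exp B * Real.exp (B * p) * Real.exp (a0 * B) * Real.exp (-(t0 * B / 2)) = 1 := by
        rw [← Real.exp_add, ← Real.exp_add, ← Real.exp_add, Real.exp_eq_one_iff, ht0]; ring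
      have j4 : (Fintype.card ι : ℝ) * (T * 6) =
          ζ * (Fintype.card ι * B ^ p * a0 * Real.exp (-(t0 * B / 2))) := by
        rw [hT, ha0]; field_simp
      rw [j4]
      refine mul_le_of_le_one_right hζ0.le (le_trans ?_ j3.le)
      gcongr
    have k5 : ζ ≤ η * (δ * K) := by rw [hζ]; nlinarith
    have k6 := abs_le.mp (m1 e)
    rw [abs_le]
    constructor <;> nlinarith
  have hM1 : 1 ≤ L ^ p := Real.one_le_rpow hL1 hp0.le
  set d := ⌈8 * B * (L ^ p) ^ 2 / ζ ^ 2⌉₊ with hd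
  obtain ⟨F, hF⟩ := maurey hE (fun e F => |g e (G F)| ^ p) (M := L ^ p) hζ0 (by linarith) hB
    (fun e F => by positivity) (fun e F => Real.rpow_le_rpow (abs_nonneg _) (hGL e F) hp0.le) hι
    d (Nat.le_ceil _)
  have hd0 : (0 : ℝ) < d := lt_of_lt_of_le (by positivity) (Nat.le_ceil _)
  refine ⟨d, fun k => G (F k), d * (δ * K), by positivity, ?_, fun e => ?_⟩
  · have k1 : (d : ℝ) < 8 * B * (L ^ p) ^ 2 / ζ ^ 2 + 1 := Nat.ceil_lt_add_one (by positivity)
    have k2 : B ^ (4 * p + 1) = B * (B ^ p) ^ 4 := by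
      rw [Real.rpow_add hB0, Real.rpow_one, mul_comm 4 p, Real.rpow_mul hB0.le, mul_comm]
      norm_num
    have k3 : L ^ p = t0 ^ p * B ^ p * B ^ p := by
      rw [hL, Real.mul_rpow (by positivity) hB0.le, Real.mul_rpow (by positivity) hB0.le]
    have k4 : 1 ≤ B ^ (4 * p + 1) := Real.one_le_rpow hB (by linarith)
    have k5 : 8 * B * (L ^ p) ^ 2 / ζ ^ 2 = 8 * (t0 ^ p) ^ 2 / ζ ^ 2 * B ^ (4 * p + 1) := by
      rw [k2, k3]; ring
    rw [k5] at k1
    linarith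
  · have k1 := abs_le.mp (hF e)
    have k2 := abs_le.mp (m3 e)
    have k5 : ζ ≤ η * (δ * K) := by rw [hζ]; nlinarith
    have k3 := mul_le_mul_of_nonneg_left k2.1 hd0.le
    have k4 := mul_le_mul_of_nonneg_left k2.2 hd0.le
    have k6 := mul_le_mul_of_nonneg_left k5 hd0.le
    rw [abs_le]
    beta_reduce
    constructor <;> linarith

end Crest.Agent.R232
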