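import Crest.Agent.R232.Jumps
import Crest.Agent.R232.Sample

/-! Dimension reduction for finite measure spaces. -/

namespace Crest.Agent.R232
open Finset

theorem core {p η γ : ℝ} (hp1 : 1 < p) (hp2 : p ≠ 2) (hη : 0 < η) (hη1 : η ≤ 1 / 4)
    (hγ0 : 0 < γ) (hγ1 : γ ≤ 1) (hγ : |p - 2| ≤ γ * p) :
    ∃ C : ℝ, ∀ n : ℕ, 2 ≤ n → ∀ (Ω : Type) [Fintype Ω] (φ : Ω → Fin n → ℝ),
      (∀ i j, i ≠ j → 0 < ∑ ω, |φ ω i - φ ω j| ^ p) →
      ∃ d : ℕ, (d : ℝ) ≤ Real.exp (C * Real.log n ^ γ) ∧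
        ∃ (F : Fin d → Fin n → ℝ) (σ : ℝ), 0 < σ ∧ ∀ i j, i ≠ j →
          |∑ k, |F k i - F k j| ^ p - σ * ∑ ω, |φ ω i - φ ω j| ^ p| ≤
            6 * η * (σ * ∑ ω, |φ ω i - φ ω j| ^ p) := by
  classical
  obtain ⟨c, hc, hJ⟩ := exists_jumps p hp1 hp2
  obtain ⟨ε, A, hε, hA, hS⟩ := sample hp1.le hη hη1 hc
  have hp0 : 0 < p := by linarith
  set C0 := 1 + c / ε with hC0
  have hC01 : 1 ≤ C0 := by rw [hC0]; linarith [show 0 ≤ c / ε by positivity]
  set C2 := 6 * c + 3 / γ + 7 * (3 * C0 + 2) with hC2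
  refine ⟨2 * A + (4 * p + 1) * C2, fun n hn Ω _ φ hφ => ?_⟩
  have hn2 : (2 : ℝ) ≤ n := by exact_mod_cast hn
  have : Nonempty (Fin n) := ⟨⟨0, by omega⟩⟩
  set L := Real.log n with hL
  have hL0 : 1 / 2 ≤ L := by
    have := Real.log_le_log (by norm_num) hn2
    linarith [Real.log_two_gt_d9]
  set u := L ^ γ with hu
  have hu0 : 1 / 2 ≤ u := by
    rcases le_total 1 L with h | h
    · linarith [Real.one_le_rpow h hγ0.le]
    · have := Real.rpow_le_rpow_of_exponent_ge (by linarith) h hγ1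
      rw [Real.rpow_one] at this
      linarith
  set Λ := 1 + L with hΛ
  have hΛ1 : 1 ≤ Λ := by linarith
  have hΛu : Λ ^ γ ≤ 3 * u := by
    have h1 := Real.rpow_le_rpow (by linarith) (by linarith : Λ ≤ 3 * L) hγ0.le
    rw [Real.mul_rpow (by norm_num) (by linarith)] at h1
    have h2 := Real.rpow_le_rpow_of_exponent_le (by norm_num : (1 : ℝ) ≤ 3) hγ1
    rw [Real.rpow_one] at h2
    nlinarith
  have hΛγ : 1 ≤ Λ ^ γ := Real.one_le_rpow hΛ1 hγ0.le
  set l := ⌈C0 * Λ ^ γ⌉₊ with hl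
  have hl1 : C0 * Λ ^ γ ≤ l := Nat.le_ceil _
  have hl2 : (l : ℝ) ≤ (3 * C0 + 2) * u := by
    have := Nat.ceil_lt_add_one (by positivity : 0 ≤ C0 * Λ ^ γ)
    nlinarith
  have hl3 : (1 : ℝ) ≤ l := by nlinarith
  have hl4 : 1 ≤ l := by exact_mod_cast hl3
  set S : Fin n × Fin n → ℝ := fun e => ∑ ω, |φ ω e.1 - φ ω e.2| ^ p with hSdef
  have hS0 : ∀ e, 0 ≤ S e := fun e => sum_nonneg fun ω _ => by positivity
  set s : Fin n × Fin n → ℝ := fun e => S e ^ p⁻¹ with hs
  have hdiv : ∀ e (a : ℝ), |a / s e| ^ p = |a| ^ p / S e := fun e a => by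
    have h1 : 0 ≤ s e := Real.rpow_nonneg (hS0 e) _
    rw [abs_div, Real.div_rpow (abs_nonneg _) (abs_nonneg _), abs_of_nonneg h1,
      Real.rpow_inv_rpow (hS0 e) hp0.ne']
  have huu : ∀ e, ∑ ω, |uu s φ ω e| ^ p = S e / S e := fun e => by
    simp only [uu, hdiv, ← sum_div]; rfl
  obtain ⟨Θ, _, π, H, τ, hπ, hmain⟩ := hJ (Fin n) Ω s φ (fun e => by
    rw [huu]; exact div_self_le_one _) l hl4
  rw [Fintype.card_fin, ← hL, ← hΛ] at hmain
  have h8 : (l : ℝ) ≤ 8 ^ l := by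
    have := Nat.lt_pow_self (by norm_num : 1 < 8) (n := l)
    exact_mod_cast this.le
  set B := 3 * (c * Λ * 8 ^ l) with hB
  have hcΛ : 1 ≤ c * Λ := by nlinarith
  have hK1 := le_KK p hl4
  have hK2 := KK_le hp0.le hl4
  have hB1 : 3 * (l : ℝ) ≤ B := by rw [hB]; nlinarith
  have hB2 : 2 * L ≤ B := by
    have : 1 ≤ c * 8 ^ l := by nlinarith
    rw [hB]; nlinarith
  have hB0 : 0 < B := by linarith
  obtain ⟨d, F, σ, hσ, hd, hF⟩ := hS (Fin n → ℝ) {e : Fin n × Fin n // e.1 ≠ e.2} Θ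
    (fun e => AddMonoidHom.mk' (fun F => (F e.1.1 - F e.1.2) / s e.1) (fun F G => by
      simp only [Pi.add_apply]; ring)) π H (fun θ e => τ θ e.1) (KK p l) B (by linarith)
    (by linarith) (by
      have h1 : Fintype.card {e : Fin n × Fin n // e.1 ≠ e.2} ≤ n * n := by
        have := Fintype.card_subtype_le (fun e : Fin n × Fin n => e.1 ≠ e.2)
        rwa [Fintype.card_prod, Fintype.card_fin] at this
      have h2 : (Fintype.card {e : Fin n × Fin n // e.1 ≠ e.2} : ℝ) ≤ n * n := by exact_mod_cast h1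
      refine h2.trans (le_trans (le_of_eq ?_) (Real.exp_le_exp.mpr hB2))
      rw [two_mul, Real.exp_add, hL, Real.exp_log (by linarith)]) hπ (fun e => by
      obtain ⟨h1, h2, h3, h4, h5⟩ := hmain e.1
      have h6 : 0 < S e.1 := hφ _ _ e.2
      rw [huu, div_self h6.ne', mul_one] at h1
      refine ⟨h1, h2, h3.trans ?_, h4, fun θ => (h5 θ).trans ?_⟩
      · have k1 : Λ ^ |p - 2| ≤ (Λ ^ γ) ^ p := by
          rw [← Real.rpow_mul (by linarith)]
          exact Real.rpow_le_rpow_of_exponent_le hΛ1 hγ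
        have k2 : C0 ≤ C0 ^ p := by
          simpa using Real.rpow_le_rpow_of_exponent_le hC01 hp1.le
        have k3 := Real.rpow_le_rpow (by positivity) hl1 hp0.le
        rw [Real.mul_rpow (by linarith) (by linarith)] at k3
        have k4 : C0 * Λ ^ |p - 2| ≤ (l : ℝ) ^ p :=
          le_trans (mul_le_mul k2 k1 (by positivity) (by positivity)) k3
        have k5 : c ≤ ε * C0 := by rw [hC0, mul_add, mul_div_cancel₀ _ hε.ne']; linarith
        have k6 : 0 < (l : ℝ) ^ p := by positivity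
        have k7 : c * Λ ^ |p - 2| ≤ ε * (l : ℝ) ^ p := by
          nlinarith [mul_le_mul_of_nonneg_right k5 (by positivity : 0 ≤ Λ ^ |p - 2|),
            mul_le_mul_of_nonneg_left k4 hε.le]
        rw [Real.rpow_sub (by linarith), Real.rpow_one]
        refine le_trans ?_ (mul_le_mul_of_nonneg_left hK1 hε.le)
        rw [show c * (l / (l : ℝ) ^ p) * Λ ^ |p - 2| = c * Λ ^ |p - 2| * l / (l : ℝ) ^ p by ring,
          div_le_iff₀ k6]
        nlinarith
      · rw [hB]; nlinarith [show 0 ≤ c * Λ * 8 ^ l by positivity])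
  refine ⟨d, hd.trans ?_, F, σ, hσ, fun i j hij => ?_⟩
  · have k1 : A ≤ Real.exp (2 * A * u) := by
      nlinarith [Real.add_one_le_exp (2 * A * u)]
    have k2 : B ≤ Real.exp (C2 * u) := by
      have j1 : 3 * c ≤ Real.exp (6 * c * u) := by nlinarith [Real.add_one_le_exp (6 * c * u)]
      have j2 : Λ ≤ Real.exp (3 / γ * u) := by
        rw [← Real.log_le_iff_le_exp (by linarith)]
        refine (Real.log_le_rpow_div (by linarith) hγ0).trans ?_
        rw [div_mul_eq_mul_div]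
        exact div_le_div_of_nonneg_right hΛu hγ0.le
      have j3 : (8 : ℝ) ^ l ≤ Real.exp (7 * (3 * C0 + 2) * u) := by
        have i1 : (8 : ℝ) ^ l ≤ Real.exp 7 ^ l :=
          pow_le_pow_left₀ (by norm_num) (by linarith [Real.add_one_le_exp 7]) l
        rw [← Real.exp_nat_mul] at i1
        exact i1.trans (Real.exp_le_exp.mpr (by linarith))
      rw [hC2, add_mul, add_mul, Real.exp_add, Real.exp_add, hB, ← mul_assoc, ← mul_assoc]
      gcongr
    have k3 := Real.rpow_le_rpow hB0.le k2 (by linarith : 0 ≤ 4 * p + 1)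
    rw [← Real.exp_mul] at k3
    rw [add_mul, Real.exp_add, show (4 * p + 1) * C2 * u = C2 * u * (4 * p + 1) by ring]
    exact mul_le_mul k1 k3 (by positivity) (by positivity)
  · have k1 := hF ⟨(i, j), hij⟩
    simp only [AddMonoidHom.mk'_apply, hdiv, ← sum_div] at k1
    have h6 : 0 < S (i, j) := hφ _ _ hij
    have k2 := mul_le_mul_of_nonneg_right k1 h6.le
    rw [← abs_of_pos h6, ← abs_mul, abs_of_pos h6, sub_mul, div_mul_cancel₀ _ h6.ne'] at k2
    exact k2.trans (le_of_eq (by simp only [hSdef]; ring))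

end Crest.Agent.R232
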