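import Mathlib

/-! Finite subsets of `L^p` are almost isometric to subsets of finite dimensional `ℓ^p`. -/

namespace Crest.Agent.R232
open Finset MeasureTheory
open scoped ENNReal

lemma lp_norm_rpow {α : Type*} [MeasurableSpace α] {μ : Measure α} {p : ℝ≥0∞} [hp : Fact (1 ≤ p)]
    (hptop : p ≠ ⊤) (f g : Lp ℝ p μ) :
    Integrable (fun a => |f a - g a| ^ p.toReal) μ ∧
      ‖f - g‖ ^ p.toReal = ∫ a, |f a - g a| ^ p.toReal ∂μ := by
  have hp0 : p ≠ 0 := (zero_lt_one.trans_le hp.out).ne'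
  have hm : MemLp (fun a => f a - g a) p μ := (Lp.memLp f).sub (Lp.memLp g)
  have hpos : 0 < p.toReal := ENNReal.toReal_pos hp0 hptop
  refine ⟨by simpa using hm.integrable_norm_rpow hp0 hptop, ?_⟩
  have h1 : ‖f - g‖ = (eLpNorm (fun a => f a - g a) p μ).toReal := by
    rw [Lp.norm_def, eLpNorm_congr_ae (Lp.coeFn_sub f g)]; rfl
  have h2 : 0 ≤ ∫ a, ‖f a - g a‖ ^ p.toReal ∂μ := integral_nonneg fun a => by positivity
  rw [h1, hm.eLpNorm_eq_integral_rpow_norm hp0 hptop, ENNReal.toReal_ofReal (by positivity),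
    Real.rpow_inv_rpow h2 hpos.ne']
  simp

theorem discretize {X : Type} [Fintype X] {α : Type*} [MeasurableSpace α] {μ : Measure α}
    {p : ℝ≥0∞} [hp : Fact (1 ≤ p)] (hptop : p ≠ ⊤) (x : X → Lp ℝ p μ) {ε : ℝ} (hε : 0 < ε) :
    ∃ (Ω : Type) (_ : Fintype Ω) (φ : Ω → X → ℝ), ∀ i j,
      |‖x i - x j‖ ^ p.toReal - ∑ ω, |φ ω i - φ ω j| ^ p.toReal| < ε := by
  classical
  have hp0 : p ≠ 0 := (zero_lt_one.trans_le hp.out).ne'
  have hpos : 0 < p.toReal := ENNReal.toReal_pos hp0 hptop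
  set q := p.toReal with hq
  set C : Set (X × X → ℝ) := {v | ∃ (Ω : Type) (_ : Fintype Ω) (φ : Ω → X → ℝ),
    ∀ e, v e = ∑ ω, |φ ω e.1 - φ ω e.2| ^ q} with hC
  have hsc : ∀ (t : ℝ), 0 ≤ t → ∀ a b : ℝ, |t ^ q⁻¹ * a - t ^ q⁻¹ * b| ^ q = t * |a - b| ^ q := by
    intro t ht a b
    rw [← mul_sub, abs_mul, Real.mul_rpow (abs_nonneg _) (abs_nonneg _),
      abs_of_nonneg (by positivity), Real.rpow_inv_rpow ht hpos.ne']
  have hconv : Convex ℝ C := by
    rintro v ⟨Ω, _, φ, hv⟩ w ⟨Ω', _, φ', hw⟩ a b ha hb -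
    refine ⟨Ω ⊕ Ω', inferInstance, Sum.elim (fun ω i => a ^ q⁻¹ * φ ω i)
      (fun ω i => b ^ q⁻¹ * φ' ω i), fun e => ?_⟩
    simp only [Pi.add_apply, Pi.smul_apply, smul_eq_mul, Fintype.sum_sum_type, Sum.elim_inl,
      Sum.elim_inr, hsc a ha, hsc b hb, hv, hw, mul_sum]
  set v0 : X × X → ℝ := fun e => ‖x e.1 - x e.2‖ ^ q with hv0
  have hcl : v0 ∈ closure C := by
    by_contra hn
    obtain ⟨f, u, h1, h2⟩ := geometric_hahn_banach_point_closed hconv.closure isClosed_closure hn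
    have h3 : ∀ (t : ℝ), 0 ≤ t → ∀ φ : X → ℝ, u < t * f (fun e => |φ e.1 - φ e.2| ^ q) := by
      intro t ht φ
      have := h2 (t • fun e => |φ e.1 - φ e.2| ^ q) (subset_closure ⟨Unit, inferInstance,
        fun _ i => t ^ q⁻¹ * φ i, fun e => by simp [hsc t ht]⟩)
      simpa using this
    have hu : u < 0 := by simpa using h3 0 le_rfl 0
    have h4 : ∀ φ : X → ℝ, 0 ≤ f (fun e => |φ e.1 - φ e.2| ^ q) := by
      intro φ
      by_contra h5
      push Not at h5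
      have := h3 (u / f (fun e => |φ e.1 - φ e.2| ^ q)) (div_nonneg_of_nonpos hu.le h5.le) φ
      rw [div_mul_cancel₀ _ h5.ne] at this
      exact lt_irrefl _ this
    have h5 : ∀ v : X × X → ℝ, f v = ∑ e, v e * f (fun j => if e = j then 1 else 0) := fun v => by
      simpa using (f : (X × X → ℝ) →ₗ[ℝ] ℝ).pi_apply_eq_sum_univ v
    have h6 : f v0 = ∫ a, ∑ e : X × X, |x e.1 a - x e.2 a| ^ q *
        f (fun j => if e = j then 1 else 0) ∂μ := by
      rw [h5, integral_finsetSum _ fun e _ => (lp_norm_rpow hptop (x e.1) (x e.2)).1.mul_const _]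
      refine sum_congr rfl fun e _ => ?_
      rw [integral_mul_const, ← (lp_norm_rpow hptop (x e.1) (x e.2)).2]
    have h7 : 0 ≤ f v0 := by
      rw [h6]
      refine integral_nonneg fun a => ?_
      have := h4 (fun i => x i a)
      rw [h5] at this
      exact this
    linarith
  obtain ⟨b, ⟨Ω, _, φ, hb⟩, h⟩ := Metric.mem_closure_iff.mp hcl ε hε
  refine ⟨Ω, inferInstance, φ, fun i j => ?_⟩
  have := (dist_le_pi_dist v0 b (i, j)).trans_lt h
  rwa [Real.dist_eq, hb] at this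

end Crest.Agent.R232
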