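import Crest.Agent.R232.Heat

/-! Localisation of electrical flows: the entrywise absolute value of the transfer-current
matrix has quadratic form at most `8 log n`. -/

namespace Crest.Agent.R232
open Finset Filter Topology

variable {X : Type*} [Fintype X] [DecidableEq X]

/-- heat kernel density started from `z` -/
noncomputable def hk (ν : X → ℝ) (k : X → X → ℝ) (m : ℕ) (z : X) : X → ℝ :=
  (stepL ν k ^ m) (Pi.single z (ν z)⁻¹)

lemma hk_succ (ν : X → ℝ) (k : X → X → ℝ) (m : ℕ) (z : X) :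
    hk ν k (m + 1) z = stepL ν k (hk ν k m z) := by
  rw [hk, pow_succ', Module.End.mul_apply]; rfl

lemma expand_single (ν : X → ℝ) (hν : ∀ x, 0 < ν x) (u : X → ℝ) :
    u = ∑ z, (ν z * u z) • (Pi.single z (ν z)⁻¹ : X → ℝ) := by
  funext x
  simp only [Finset.sum_apply, Pi.smul_apply, smul_eq_mul, Pi.single_apply]
  rw [sum_eq_single x]
  · have := (hν x).ne'
    simp; field_simp
  · intro b _ hb; simp [Ne.symm hb]
  · simp

lemma pow_expand (ν : X → ℝ) (k : X → X → ℝ) (hν : ∀ x, 0 < ν x) (m : ℕ) (u : X → ℝ) (x : X) :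
    (stepL ν k ^ m) u x = ∑ z, ν z * u z * hk ν k m z x := by
  conv_lhs => rw [expand_single ν hν u]
  simp only [map_sum, map_smul, Finset.sum_apply, Pi.smul_apply, smul_eq_mul, hk]

lemma pow_eval (ν : X → ℝ) (k : X → X → ℝ) (hν : ∀ x, 0 < ν x) (hks : ∀ x y, k x y = k y x)
    (m : ℕ) (u : X → ℝ) (z : X) :
    (stepL ν k ^ m) u z = ∑ x, ν x * (hk ν k m z x * u x) := by
  rw [hk, ← stepL_pow_symm ν k hν hks, sum_eq_single z]
  · have := (hν z).ne'
    simp; field_simp
  · intro b _ hb; simp [hb]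
  · simp

lemma hk_nonneg (ν : X → ℝ) (k : X → X → ℝ) (hν : ∀ x, 0 < ν x) (hk0 : ∀ x y, 0 ≤ k x y)
    (hl : ∀ x, 2 * ∑ y, k x y ≤ ν x) (m : ℕ) (z x : X) : 0 ≤ hk ν k m z x := by
  induction m generalizing x with
  | zero =>
    simp only [hk, pow_zero, Module.End.one_apply, Pi.single_apply]
    split_ifs
    · exact (inv_pos.mpr (hν z)).le
    · exact le_rfl
  | succ m ih => rw [hk_succ]; exact stepL_nonneg ν k hν hk0 hl _ ih x

lemma hk_mass (ν : X → ℝ) (k : X → X → ℝ) (hν : ∀ x, 0 < ν x) (hks : ∀ x y, k x y = k y x)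
    (m : ℕ) (z : X) : ∑ x, ν x * hk ν k m z x = 1 := by
  induction m with
  | zero =>
    simp only [hk, pow_zero, Module.End.one_apply]
    rw [sum_eq_single z]
    · have := (hν z).ne'
      simp; field_simp
    · intro b _ hb; simp [hb]
    · simp
  | succ m ih => rw [hk_succ, stepL_mass ν k hν hks, ih]

lemma ent_hk_zero (ν : X → ℝ) (k : X → X → ℝ) (hν : ∀ x, 0 < ν x) (z : X) :
    ent ν (hk ν k 0 z) = - Real.log (ν z) := by
  simp only [hk, pow_zero, Module.End.one_apply, ent]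
  rw [sum_eq_single z]
  · have := (hν z).ne'
    simp; field_simp
  · intro b _ hb; simp [hb]
  · simp

lemma fisher_sum (ν : X → ℝ) (k : X → X → ℝ) (hν : ∀ x, 0 < ν x) (hk0 : ∀ x y, 0 ≤ k x y)
    (hks : ∀ x y, k x y = k y x) (hl : ∀ x, 2 * ∑ y, k x y ≤ ν x) (h1 : ∑ x, ν x = 1)
    (z : X) (M : ℕ) :
    ∑ m ∈ range M, ∑ x, ∑ y, k x y * (√(hk ν k m z y) - √(hk ν k m z x)) ^ 2 ≤
      2 * - Real.log (ν z) := by
  have h : ∀ M, ∑ m ∈ range M, ∑ x, ∑ y, k x y * (√(hk ν k m z y) - √(hk ν k m z x)) ^ 2 ≤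
      2 * (ent ν (hk ν k 0 z) - ent ν (hk ν k M z)) := by
    intro M
    induction M with
    | zero => simp
    | succ M ih =>
      rw [sum_range_succ, hk_succ]
      have := ent_step ν k hν hk0 hks hl (hk ν k M z) (hk_nonneg ν k hν hk0 hl M z)
      linarith
  have h2 := ent_nonneg ν (hk ν k M z) hν (hk_nonneg ν k hν hk0 hl M z) h1 (hk_mass ν k hν hks M z)
  have h3 := h M
  rw [ent_hk_zero ν k hν] at h3
  linarith

omit [DecidableEq X] in
lemma entropy_le_log (ν : X → ℝ) (hν : ∀ x, 0 < ν x) (h1 : ∑ x, ν x = 1) :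
    ∑ z, ν z * - Real.log (ν z) ≤ Real.log (Fintype.card X) := by
  have hne : Nonempty X := by
    by_contra h
    rw [not_nonempty_iff] at h
    simp at h1
  have hn : (0 : ℝ) < Fintype.card X := by exact_mod_cast Fintype.card_pos
  have h : ∀ z, ν z * - Real.log (ν z) ≤
      ν z * Real.log (Fintype.card X) + ((Fintype.card X : ℝ)⁻¹ - ν z) := by
    intro z
    have hz := hν z
    have h2 : Real.log ((Fintype.card X * ν z)⁻¹) ≤ (Fintype.card X * ν z)⁻¹ - 1 :=
      Real.log_le_sub_one_of_pos (by positivity)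
    rw [Real.log_inv, Real.log_mul hn.ne' hz.ne'] at h2
    have h3 := mul_le_mul_of_nonneg_left h2 hz.le
    have h4 : ν z * ((Fintype.card X * ν z)⁻¹ - 1) = (Fintype.card X : ℝ)⁻¹ - ν z := by
      field_simp
    rw [h4] at h3
    nlinarith
  refine (sum_le_sum fun z _ => h z).trans (le_of_eq ?_)
  rw [sum_add_distrib, ← sum_mul, h1, sum_sub_distrib, h1]
  simp only [sum_const, card_univ, nsmul_eq_mul]
  field_simp; ring

omit [DecidableEq X] in
lemma cs_hellinger (a b : X × X → ℝ) (h : X → ℝ) (h0 : ∀ x, 0 ≤ h x)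
    (hm : ∑ e, a e ^ 2 * (h e.1 + h e.2) = 2) :
    (∑ e, |a e| * |b e * (h e.1 - h e.2)|) ^ 2 ≤
      4 * ∑ e, b e ^ 2 * (√(h e.2) - √(h e.1)) ^ 2 := by
  have e1 : ∀ e : X × X, |a e| * |b e * (h e.1 - h e.2)| =
      (|a e| * (√(h e.1) + √(h e.2))) * |b e * (√(h e.2) - √(h e.1))| := by
    intro e
    have h1 : h e.1 - h e.2 = - ((√(h e.1) + √(h e.2)) * (√(h e.2) - √(h e.1))) := by
      have := Real.sq_sqrt (h0 e.1)
      have := Real.sq_sqrt (h0 e.2)
      nlinarith
    have h2 : 0 ≤ √(h e.1) + √(h e.2) := by positivity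
    rw [h1, mul_neg, abs_neg, abs_mul, abs_mul, abs_mul, abs_of_nonneg h2]; ring
  simp only [e1]
  refine (sum_mul_sq_le_sq_mul_sq _ _ _).trans ?_
  have h3 : ∑ e, (|a e| * (√(h e.1) + √(h e.2))) ^ 2 ≤ 4 := by
    have : ∀ e : X × X, (|a e| * (√(h e.1) + √(h e.2))) ^ 2 ≤ 2 * (a e ^ 2 * (h e.1 + h e.2)) := by
      intro e
      rw [mul_pow, sq_abs]
      have h4 := Real.sq_sqrt (h0 e.1)
      have h5 := Real.sq_sqrt (h0 e.2)
      have h6 : (√(h e.1) + √(h e.2)) ^ 2 ≤ 2 * (h e.1 + h e.2) := by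
        nlinarith [sq_nonneg (√(h e.1) - √(h e.2))]
      nlinarith [mul_le_mul_of_nonneg_left h6 (sq_nonneg (a e))]
    refine (sum_le_sum fun e _ => this e).trans ?_
    rw [← mul_sum, hm]; norm_num
  have h7 : ∑ e, |b e * (√(h e.2) - √(h e.1))| ^ 2 = ∑ e, b e ^ 2 * (√(h e.2) - √(h e.1)) ^ 2 :=
    sum_congr rfl fun e _ => by rw [sq_abs, mul_pow]
  rw [h7]
  exact mul_le_mul_of_nonneg_right h3 (sum_nonneg fun e _ => by positivity)

theorem localization (a b : X × X → ℝ) (ha : ∀ e, a e ≠ 0) (ha1 : ∑ e, a e ^ 2 = 1)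
    (g : X × X → X → ℝ)
    (hg : ∀ e' (f : X → ℝ), ∑ e, b e * (g e' e.1 - g e' e.2) * (b e * (f e.1 - f e.2)) =
      b e' * (f e'.1 - f e'.2)) :
    ∑ e, ∑ e', |a e| * |a e'| * |b e * (g e' e.1 - g e' e.2)| ≤
      8 * Real.log (Fintype.card X) := by
  set ν : X → ℝ := fun x => (∑ y, a (x, y) ^ 2 + ∑ y, a (y, x) ^ 2) / 2 with hνdef
  have hν : ∀ x, 0 < ν x := by
    intro x
    have h1 : 0 < ∑ y, a (x, y) ^ 2 :=
      sum_pos (fun y _ => sq_pos_of_ne_zero (ha _)) ⟨x, mem_univ x⟩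
    have h2 : 0 ≤ ∑ y, a (y, x) ^ 2 := sum_nonneg fun y _ => sq_nonneg _
    simp only [hνdef]; linarith
  have hmarg : ∀ h : X → ℝ, ∑ e, a e ^ 2 * (h e.1 + h e.2) = 2 * ∑ x, ν x * h x := by
    intro h
    have e1 : ∑ e : X × X, a e ^ 2 * h e.1 = ∑ x, (∑ y, a (x, y) ^ 2) * h x := by
      rw [Fintype.sum_prod_type]; exact sum_congr rfl fun x _ => by rw [sum_mul]
    have e2 : ∑ e : X × X, a e ^ 2 * h e.2 = ∑ x, (∑ y, a (y, x) ^ 2) * h x := by
      rw [Fintype.sum_prod_type, sum_comm]; exact sum_congr rfl fun x _ => by rw [sum_mul]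
    simp only [mul_add, sum_add_distrib, e1, e2]
    rw [mul_sum, ← sum_add_distrib]
    exact sum_congr rfl fun x _ => by simp only [hνdef]; ring
  have h1 : ∑ x, ν x = 1 := by
    have := hmarg (fun _ => 1)
    simp only [mul_one, ← sum_mul, ha1] at this
    linarith
  -- choice of the time step
  obtain ⟨τ, hτ, hτl⟩ : ∃ τ : ℝ, 0 < τ ∧
      ∀ x, 2 * ∑ y, τ * (b (x, y) ^ 2 + b (y, x) ^ 2) ≤ ν x := by
    have hev : ∀ x, ∀ᶠ τ in 𝓝[>] (0 : ℝ), 2 * ∑ y, τ * (b (x, y) ^ 2 + b (y, x) ^ 2) < ν x := by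
      intro x
      have hc : Continuous fun τ : ℝ => 2 * ∑ y, τ * (b (x, y) ^ 2 + b (y, x) ^ 2) := by
        fun_prop
      have := hc.tendsto 0
      simp only [zero_mul, sum_const_zero, mul_zero] at this
      exact (this.eventually (gt_mem_nhds (hν x))).filter_mono nhdsWithin_le_nhds
    obtain ⟨τ, h2, h3⟩ := ((eventually_all.mpr hev).and self_mem_nhdsWithin).exists
    exact ⟨τ, h3, fun x => (h2 x).le⟩
  set k : X → X → ℝ := fun x y => τ * (b (x, y) ^ 2 + b (y, x) ^ 2) with hkdef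
  have hk0 : ∀ x y, 0 ≤ k x y := fun x y => by simp only [hkdef]; positivity
  have hks : ∀ x y, k x y = k y x := fun x y => by simp only [hkdef]; ring
  have hl : ∀ x, 2 * ∑ y, k x y ≤ ν x := hτl
  have hsymsum : ∀ F : X → X → ℝ, (∀ x y, F x y = F y x) →
      ∑ x, ∑ y, k x y * F x y = 2 * τ * ∑ e : X × X, b e ^ 2 * F e.1 e.2 := by
    intro F hF
    have e1 : ∑ x, ∑ y, b (y, x) ^ 2 * F x y = ∑ x, ∑ y, b (x, y) ^ 2 * F x y := by
      rw [sum_comm]; exact sum_congr rfl fun x _ => sum_congr rfl fun y _ => by rw [hF]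
    have e2 : ∑ x, ∑ y, k x y * F x y =
        τ * (∑ x, ∑ y, b (x, y) ^ 2 * F x y + ∑ x, ∑ y, b (y, x) ^ 2 * F x y) := by
      simp only [← sum_add_distrib, mul_sum, hkdef]
      exact sum_congr rfl fun x _ => sum_congr rfl fun y _ => by ring
    rw [e2, e1, Fintype.sum_prod_type]; ring
  set P := stepL ν k with hP
  set B : (X → ℝ) → X × X → ℝ := fun f e => b e * (f e.1 - f e.2) with hB
  have hnormal : ∀ e' (f : X → ℝ), ∑ x, ν x * (f x * (g e' x - P (g e') x)) = τ * B f e' := by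
    intro e' f
    rw [dirichlet ν k hν hks, hsymsum _ (fun x y => by ring)]
    simp only [hB]
    rw [← hg e' f]
    have : ∑ e : X × X, b e ^ 2 * ((f e.1 - f e.2) * (g e' e.1 - g e' e.2)) =
        ∑ e, b e * (g e' e.1 - g e' e.2) * (b e * (f e.1 - f e.2)) :=
      sum_congr rfl fun e _ => by ring
    rw [this]; ring
  have hBexp : ∀ (m : ℕ) (u : X → ℝ) e, B ((P ^ m) u) e = ∑ z, ν z * u z * B (hk ν k m z) e := by
    intro m u e
    simp only [hB, hP, pow_expand ν k hν m u, mul_sum, ← sum_sub_distrib]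
    exact sum_congr rfl fun z _ => by ring
  have hsplit : ∀ (m m' : ℕ) e e', B ((P ^ (m + m')) (g e' - P (g e'))) e =
      τ * ∑ z, ν z * (B (hk ν k m z) e * B (hk ν k m' z) e') := by
    intro m m' e e'
    rw [pow_add, Module.End.mul_apply, hBexp, mul_sum]
    refine sum_congr rfl fun z _ => ?_
    rw [hP, pow_eval ν k hν hks]
    have := hnormal e' (hk ν k m' z)
    simp only [Pi.sub_apply]
    rw [this]; ring
  have htel : ∀ (M : ℕ) e e', B (g e') e = B ((P ^ (M + M)) (g e')) e +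
      ∑ m ∈ range M, (B ((P ^ (m + m)) (g e' - P (g e'))) e +
        B ((P ^ (m + (m + 1))) (g e' - P (g e'))) e) := by
    intro M e e'
    induction M with
    | zero => simp
    | succ M ih =>
      rw [sum_range_succ, ih]
      have e1 : (P ^ (M + M)) (P (g e')) = (P ^ (M + (M + 1))) (g e') := by
        rw [← add_assoc, pow_succ, Module.End.mul_apply]
      have e2 : (P ^ (M + (M + 1))) (P (g e')) = (P ^ (M + 1 + (M + 1))) (g e') := by
        rw [show M + 1 + (M + 1) = M + (M + 1) + 1 by ring, pow_succ, Module.End.mul_apply]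
      simp only [map_sub, e1, e2, hB, Pi.sub_apply]
      ring
  set A : ℕ → X → ℝ := fun m z => ∑ e, |a e| * |B (hk ν k m z) e| with hA
  have hA0 : ∀ m z, 0 ≤ A m z := fun m z => sum_nonneg fun e _ => by positivity
  have hAsum : ∀ z M, τ * ∑ m ∈ range M, A m z ^ 2 ≤ 4 * - Real.log (ν z) := by
    intro z M
    have h2 := fisher_sum ν k hν hk0 hks hl h1 z M
    have h3 : ∀ m, τ * A m z ^ 2 ≤
        2 * ∑ x, ∑ y, k x y * (√(hk ν k m z y) - √(hk ν k m z x)) ^ 2 := by
      intro m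
      rw [hsymsum (fun x y => (√(hk ν k m z y) - √(hk ν k m z x)) ^ 2) (fun x y => by ring)]
      have := cs_hellinger a b (hk ν k m z) (hk_nonneg ν k hν hk0 hl m z)
        (by rw [hmarg, hk_mass ν k hν hks]; norm_num)
      nlinarith [mul_le_mul_of_nonneg_left this hτ.le]
    rw [mul_sum]
    refine (sum_le_sum fun m _ => h3 m).trans ?_
    rw [← mul_sum]; linarith
  have hpair : ∀ m m', ∑ e, ∑ e', |a e| * |a e'| * |B ((P ^ (m + m')) (g e' - P (g e'))) e| ≤
      τ * ∑ z, ν z * (A m z * A m' z) := by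
    intro m m'
    have h2 : ∀ e e', |a e| * |a e'| * |B ((P ^ (m + m')) (g e' - P (g e'))) e| ≤
        τ * ∑ z, ν z * ((|a e| * |B (hk ν k m z) e|) * (|a e'| * |B (hk ν k m' z) e'|)) := by
      intro e e'
      rw [hsplit, abs_mul, abs_of_pos hτ]
      have h3 : |∑ z, ν z * (B (hk ν k m z) e * B (hk ν k m' z) e')| ≤
          ∑ z, ν z * (|B (hk ν k m z) e| * |B (hk ν k m' z) e'|) := by
        refine (abs_sum_le_sum_abs _ _).trans (le_of_eq (sum_congr rfl fun z _ => ?_))
        rw [abs_mul, abs_mul, abs_of_pos (hν z)]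
      have h4 : ∑ z, ν z * ((|a e| * |B (hk ν k m z) e|) * (|a e'| * |B (hk ν k m' z) e'|)) =
          |a e| * |a e'| * ∑ z, ν z * (|B (hk ν k m z) e| * |B (hk ν k m' z) e'|) := by
        rw [mul_sum]; exact sum_congr rfl fun z _ => by ring
      rw [h4]
      have h5 : 0 ≤ |a e| * |a e'| := by positivity
      nlinarith [mul_le_mul_of_nonneg_left h3 (mul_nonneg hτ.le h5)]
    refine (sum_le_sum fun e _ => sum_le_sum fun e' _ => h2 e e').trans (le_of_eq ?_)
    simp only [← mul_sum]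
    congr 1
    simp_rw [sum_comm (s := univ (α := X × X)) (t := univ (α := X))]
    refine sum_congr rfl fun z _ => ?_
    simp only [hA]
    rw [sum_mul_sum]
    simp only [mul_sum]
  set R : ℕ → ℝ := fun M => ∑ e', ∑ z, |a e'| * (ν z * |g e' z|) * A (M + M) z with hR
  have hrem : ∀ M, ∑ e, ∑ e', |a e| * |a e'| * |B ((P ^ (M + M)) (g e')) e| ≤ R M := by
    intro M
    rw [sum_comm]
    refine sum_le_sum fun e' _ => ?_
    simp only [hA, mul_sum]
    rw [sum_comm]
    refine sum_le_sum fun e _ => ?_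
    rw [hBexp]
    have h3 : |∑ z, ν z * g e' z * B (hk ν k (M + M) z) e| ≤
        ∑ z, ν z * |g e' z| * |B (hk ν k (M + M) z) e| := by
      refine (abs_sum_le_sum_abs _ _).trans (le_of_eq (sum_congr rfl fun z _ => ?_))
      rw [abs_mul, abs_mul, abs_of_pos (hν z)]
    refine (mul_le_mul_of_nonneg_left h3 (by positivity)).trans (le_of_eq ?_)
    rw [mul_sum]; exact sum_congr rfl fun z _ => by ring
  have hRlim : Tendsto R atTop (𝓝 0) := by
    have hAl : ∀ z, Tendsto (fun M => A (M + M) z) atTop (𝓝 0) := by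
      intro z
      have hs : Summable fun m => A m z ^ 2 :=
        summable_of_sum_range_le (c := 4 * - Real.log (ν z) / τ) (fun m => sq_nonneg _)
          (fun M => by rw [le_div_iff₀ hτ, mul_comm]; exact hAsum z M)
      have h2 := (hs.tendsto_atTop_zero).sqrt
      simp only [Real.sqrt_sq (hA0 _ _), Real.sqrt_zero] at h2
      exact h2.comp (tendsto_atTop_mono (fun M => Nat.le_add_right M M) tendsto_id)
    have : Tendsto R atTop (𝓝 (∑ e' : X × X, ∑ z : X, |a e'| * (ν z * |g e' z|) * 0)) :=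
      tendsto_finsetSum _ fun e' _ => tendsto_finsetSum _ fun z _ => (hAl z).const_mul _
    simpa using this
  have hmain : ∀ M, ∑ e, ∑ e', |a e| * |a e'| * |B (g e') e| ≤
      R M + 8 * Real.log (Fintype.card X) := by
    intro M
    have h2 : ∀ e e', |a e| * |a e'| * |B (g e') e| ≤
        |a e| * |a e'| * |B ((P ^ (M + M)) (g e')) e| + ∑ m ∈ range M,
          (|a e| * |a e'| * |B ((P ^ (m + m)) (g e' - P (g e'))) e| +
            |a e| * |a e'| * |B ((P ^ (m + (m + 1))) (g e' - P (g e'))) e|) := by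
      intro e e'
      simp only [← mul_add, ← mul_sum]
      refine mul_le_mul_of_nonneg_left ?_ (by positivity)
      rw [htel M e e']
      refine (abs_add_le _ _).trans (add_le_add le_rfl ?_)
      exact (abs_sum_le_sum_abs _ _).trans (sum_le_sum fun m _ => abs_add_le _ _)
    refine (sum_le_sum fun e _ => sum_le_sum fun e' _ => h2 e e').trans ?_
    simp only [sum_add_distrib]
    refine add_le_add (hrem M) ?_
    have h3 : ∀ F : ℕ → X × X → X × X → ℝ, ∑ e, ∑ e', ∑ m ∈ range M, F m e e' =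
        ∑ m ∈ range M, ∑ e, ∑ e', F m e e' := by
      intro F
      simp_rw [sum_comm (s := univ (α := X × X)) (t := range M)]
    rw [h3 (fun m e e' => |a e| * |a e'| * |B ((P ^ (m + m)) (g e' - P (g e'))) e|),
      h3 (fun m e e' => |a e| * |a e'| * |B ((P ^ (m + (m + 1))) (g e' - P (g e'))) e|),
      ← sum_add_distrib]
    refine (sum_le_sum fun m _ => add_le_add (hpair m m) (hpair m (m + 1))).trans ?_
    have h4 : ∑ m ∈ range M, (τ * ∑ z, ν z * (A m z * A m z) + τ * ∑ z, ν z * (A m z * A (m + 1) z))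
        = ∑ z, ν z * (τ * ∑ m ∈ range M, (A m z * A m z + A m z * A (m + 1) z)) := by
      simp only [mul_sum, ← sum_add_distrib]
      rw [sum_comm]
      exact sum_congr rfl fun z _ => sum_congr rfl fun m _ => by ring
    rw [h4]
    have h5 : ∀ z, τ * ∑ m ∈ range M, (A m z * A m z + A m z * A (m + 1) z) ≤
        8 * - Real.log (ν z) := by
      intro z
      have h6 : ∑ m ∈ range M, (A m z * A m z + A m z * A (m + 1) z) ≤
          3 / 2 * ∑ m ∈ range M, A m z ^ 2 + 1 / 2 * ∑ m ∈ range M, A (m + 1) z ^ 2 := by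
        simp only [mul_sum, ← sum_add_distrib]
        exact sum_le_sum fun m _ => by nlinarith [sq_nonneg (A m z - A (m + 1) z)]
      have h7 : ∑ m ∈ range M, A (m + 1) z ^ 2 ≤ ∑ m ∈ range (M + 1), A m z ^ 2 := by
        rw [sum_range_succ']; linarith [sq_nonneg (A 0 z)]
      have h8 := hAsum z M
      have h9 := hAsum z (M + 1)
      nlinarith [mul_le_mul_of_nonneg_left h6 hτ.le, mul_le_mul_of_nonneg_left h7 hτ.le]
    refine (sum_le_sum fun z _ => mul_le_mul_of_nonneg_left (h5 z) (hν z).le).trans ?_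
    have h10 := entropy_le_log ν hν h1
    have h11 : ∑ z, ν z * (8 * - Real.log (ν z)) = 8 * ∑ z, ν z * - Real.log (ν z) := by
      rw [mul_sum]; exact sum_congr rfl fun z _ => by ring
    rw [h11]; linarith
  have hlim : Tendsto (fun M => R M + 8 * Real.log (Fintype.card X)) atTop
      (𝓝 (0 + 8 * Real.log (Fintype.card X))) := hRlim.add_const _
  rw [zero_add] at hlim
  exact ge_of_tendsto' hlim hmain

end Crest.Agent.R232
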