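import Mathlib

/-! Geometric sums over dyadic levels, truncation windows. -/

namespace Crest.Agent.R232
open Finset

lemma geo_le_aux (a r y : ℝ) (ha : 0 < a) (hr : 1 < r) (hy : 0 ≤ y) (N : ℕ) :
    ∑ j ∈ range N, (if a * r ^ j ≤ y then a * r ^ j else 0) ≤ r / (r - 1) * y ∧
    ∑ j ∈ range N, (if a * r ^ j ≤ y then a * r ^ j else 0) ≤ a * r ^ N / (r - 1) := by
  have hr1 : 0 < r - 1 := by linarith
  induction N with
  | zero => simp only [range_zero, sum_empty]; constructor <;> positivity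
  | succ N ih =>
    rw [sum_range_succ]
    have e : a * r ^ (N + 1) / (r - 1) = a * r ^ N / (r - 1) + a * r ^ N := by
      field_simp; ring
    have hp : 0 < a * r ^ N := by positivity
    split_ifs with h
    · refine ⟨?_, by linarith [ih.2]⟩
      have : a * r ^ N / (r - 1) + a * r ^ N = r / (r - 1) * (a * r ^ N) := by field_simp; ring
      have h2 : r / (r - 1) * (a * r ^ N) ≤ r / (r - 1) * y :=
        mul_le_mul_of_nonneg_left h (by positivity)
      linarith [ih.2]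
    · exact ⟨by linarith [ih.1], by linarith [ih.2]⟩

lemma geo_ge_aux (a r y : ℝ) (ha : 0 < a) (hr : 1 < r) (hy : 0 < y) (N : ℕ) :
    (a * r ^ N < y → ∑ j ∈ range N, (if y ≤ a * r ^ j then (a * r ^ j)⁻¹ else 0) = 0) ∧
    (y ≤ a * r ^ N → ∑ j ∈ range N, (if y ≤ a * r ^ j then (a * r ^ j)⁻¹ else 0) +
      r / (r - 1) * (a * r ^ N)⁻¹ ≤ r / (r - 1) * y⁻¹) := by
  have hr1 : 0 < r - 1 := by linarith
  have hr0 : 0 < r := by linarith
  induction N with
  | zero =>
    simp only [range_zero, sum_empty, pow_zero, mul_one, zero_add, implies_true, true_and]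
    intro h
    exact mul_le_mul_of_nonneg_left (inv_anti₀ hy h) (by positivity)
  | succ N ih =>
    have hp : 0 < a * r ^ N := by positivity
    have hlt : a * r ^ N < a * r ^ (N + 1) := by rw [pow_succ]; nlinarith
    rw [sum_range_succ]
    constructor
    · intro h
      rw [ih.1 (hlt.trans h), if_neg (not_le.mpr (hlt.trans h)), add_zero]
    · intro h
      by_cases h2 : y ≤ a * r ^ N
      · rw [if_pos h2]
        have e : (a * r ^ N)⁻¹ + r / (r - 1) * (a * r ^ (N + 1))⁻¹ = r / (r - 1) * (a * r ^ N)⁻¹ := by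
          field_simp; ring
        linarith [ih.2 h2]
      · rw [if_neg h2, ih.1 (not_le.mp h2)]
        simp only [add_zero, zero_add]
        exact mul_le_mul_of_nonneg_left (inv_anti₀ hy h) (by positivity)

/-- dyadic level -/
noncomputable def lam (l0 : ℝ) (i : ℕ) : ℝ := l0 * 2 ^ i

lemma lam_pos {l0 : ℝ} (h : 0 < l0) (i : ℕ) : 0 < lam l0 i := by unfold lam; positivity

lemma lam_mono {l0 : ℝ} (h : 0 < l0) {i j : ℕ} (hij : i ≤ j) : lam l0 i ≤ lam l0 j := by
  unfold lam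
  exact mul_le_mul_of_nonneg_left (pow_le_pow_right₀ (by norm_num) hij) h.le

/-- the constant in geometric sums -/
noncomputable def cq (q : ℝ) : ℝ := 2 ^ q / (2 ^ q - 1)

lemma cq_pos {q : ℝ} (hq : 0 < q) : 0 < cq q := by
  have : (1 : ℝ) < 2 ^ q := Real.one_lt_rpow (by norm_num) hq
  unfold cq; apply div_pos <;> linarith

lemma lam_rpow {l0 : ℝ} (h : 0 < l0) (q : ℝ) (i : ℕ) :
    lam l0 i ^ q = l0 ^ q * (2 ^ q) ^ i := by
  unfold lam
  rw [Real.mul_rpow h.le (by positivity), ← Real.rpow_natCast, ← Real.rpow_natCast,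
    ← Real.rpow_mul (by norm_num), ← Real.rpow_mul (by norm_num), mul_comm q]

lemma geo_up {l0 q y : ℝ} (h : 0 < l0) (hq : 0 < q) (hy : 0 ≤ y) (N : ℕ) :
    ∑ j ∈ range N, (if lam l0 j ≤ y then lam l0 j ^ q else 0) ≤ cq q * y ^ q := by
  have h1 := (geo_le_aux (l0 ^ q) (2 ^ q) (y ^ q) (by positivity)
    (Real.one_lt_rpow (by norm_num) hq) (by positivity) N).1
  refine le_trans (le_of_eq (sum_congr rfl fun j _ => ?_)) h1
  rw [← lam_rpow h]
  have : lam l0 j ≤ y ↔ lam l0 j ^ q ≤ y ^ q :=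
    (Real.rpow_le_rpow_iff (lam_pos h j).le hy hq).symm
  simp only [this]

lemma geo_down {l0 q y : ℝ} (h : 0 < l0) (hq : 0 < q) (hy : 0 < y) (N : ℕ) :
    ∑ j ∈ range N, (if y ≤ lam l0 j then lam l0 j ^ (-q) else 0) ≤ cq q * y ^ (-q) := by
  have hr : (1 : ℝ) < 2 ^ q := Real.one_lt_rpow (by norm_num) hq
  have h1 := geo_ge_aux (l0 ^ q) (2 ^ q) (y ^ q) (by positivity) hr (by positivity) N
  have h2 : ∑ j ∈ range N, (if y ≤ lam l0 j then lam l0 j ^ (-q) else 0) =
      ∑ j ∈ range N, (if y ^ q ≤ l0 ^ q * (2 ^ q) ^ j then (l0 ^ q * (2 ^ q) ^ j)⁻¹ else 0) := by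
    refine sum_congr rfl fun j _ => ?_
    rw [← lam_rpow h, Real.rpow_neg (lam_pos h j).le]
    have : y ≤ lam l0 j ↔ y ^ q ≤ lam l0 j ^ q :=
      (Real.rpow_le_rpow_iff hy.le (lam_pos h j).le hq).symm
    simp only [this]
  rw [h2, Real.rpow_neg hy.le]
  have hc := cq_pos hq
  rcases lt_or_ge (l0 ^ q * (2 ^ q) ^ N) (y ^ q) with h3 | h3
  · rw [h1.1 h3]; positivity
  · have h4 := h1.2 h3
    have h5 : 0 ≤ cq q * (l0 ^ q * (2 ^ q) ^ N)⁻¹ := by positivity
    unfold cq at h5 ⊢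
    linarith

/-- truncation at level `y` -/
noncomputable def tr (y v : ℝ) : ℝ := if |v| ≤ y then v else 0

lemma abs_tr_le {y : ℝ} (hy : 0 ≤ y) (v : ℝ) : |tr y v| ≤ y := by
  unfold tr; split_ifs with h
  · exact h
  · simpa using hy

lemma tr_sq_sum {l0 p : ℝ} (h : 0 < l0) (hp0 : 0 < p) (hp : p < 2) (x : ℝ) (N : ℕ) :
    ∑ i ∈ range N, lam l0 i ^ (p - 2) * tr (lam l0 i) x ^ 2 ≤ cq (2 - p) * |x| ^ p := by
  have hc := cq_pos (by linarith : 0 < 2 - p)
  rcases eq_or_ne x 0 with rfl | hx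
  · simp [tr, Real.zero_rpow hp0.ne']
  have hx0 : 0 < |x| := abs_pos.mpr hx
  have h1 := geo_down h (by linarith : 0 < 2 - p) hx0 N
  have h2 : ∑ i ∈ range N, lam l0 i ^ (p - 2) * tr (lam l0 i) x ^ 2 =
      (∑ j ∈ range N, (if |x| ≤ lam l0 j then lam l0 j ^ (-(2 - p)) else 0)) * |x| ^ (2 : ℝ) := by
    rw [sum_mul]
    refine sum_congr rfl fun i _ => ?_
    unfold tr
    split_ifs <;> simp
  rw [h2]
  refine (mul_le_mul_of_nonneg_right h1 (by positivity)).trans (le_of_eq ?_)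
  rw [mul_assoc, ← Real.rpow_add hx0]; congr 2; ring

lemma ex_pow_sum {l0 p q : ℝ} (h : 0 < l0) (hq : 0 ≤ q) (hp : q < p) (x : ℝ) (N : ℕ) :
    ∑ i ∈ range N, lam l0 i ^ (p - q) * |x - tr (lam l0 i) x| ^ q ≤
      cq (p - q) * |x| ^ p + (if q = 0 then ∑ i ∈ range N, lam l0 i ^ (p - q) else 0) := by
  have hc := cq_pos (by linarith : 0 < p - q)
  split_ifs with hq0
  · subst hq0
    simp only [Real.rpow_zero, mul_one, le_add_iff_nonneg_left]
    positivity
  rw [add_zero]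
  have h1 := geo_up h (by linarith : 0 < p - q) (abs_nonneg x) N
  have h2 : ∑ i ∈ range N, lam l0 i ^ (p - q) * |x - tr (lam l0 i) x| ^ q ≤
      (∑ j ∈ range N, (if lam l0 j ≤ |x| then lam l0 j ^ (p - q) else 0)) * |x| ^ q := by
    rw [sum_mul]
    refine sum_le_sum fun i _ => ?_
    have := lam_pos h i
    unfold tr
    by_cases h3 : |x| ≤ lam l0 i
    · rw [if_pos h3, sub_self, abs_zero, Real.zero_rpow hq0, mul_zero]
      split_ifs <;> positivity
    · rw [if_neg h3, if_pos (not_le.mp h3).le, sub_zero]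
  refine h2.trans ((mul_le_mul_of_nonneg_right h1 (by positivity)).trans (le_of_eq ?_))
  rw [mul_assoc, ← Real.rpow_add' (abs_nonneg x) (by linarith)]; congr 2; ring

lemma ex_sq_sum {l0 p : ℝ} (h : 0 < l0) (hp : 2 < p) (x : ℝ) (N : ℕ) :
    ∑ i ∈ range N, lam l0 i ^ (p - 2) * (x - tr (lam l0 i) x) ^ 2 ≤ cq (p - 2) * |x| ^ p := by
  have := ex_pow_sum h (by norm_num : (0 : ℝ) ≤ 2) hp x N
  simpa using this

lemma ex_abs_sum {l0 p : ℝ} (h : 0 < l0) (hp : 1 < p) (x : ℝ) (N : ℕ) :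
    ∑ i ∈ range N, lam l0 i ^ (p - 1) * |x - tr (lam l0 i) x| ≤ cq (p - 1) * |x| ^ p := by
  have := ex_pow_sum h (by norm_num : (0 : ℝ) ≤ 1) hp x N
  simpa using this

lemma cs_part (l0 p : ℝ) (h : 0 < l0) (r : ℕ → ℝ) (N : ℕ) (P : ℕ → Prop) [DecidablePred P] :
    (∑ i ∈ range N, if P i then |r i| else 0) ^ 2 ≤
      (∑ i ∈ range N, if P i then lam l0 i ^ (2 - p) else 0) *
        ∑ i ∈ range N, lam l0 i ^ (p - 2) * r i ^ 2 := by
  refine sum_sq_le_sum_mul_sum_of_sq_le_mul _ (fun i _ => ?_) (fun i _ => ?_) (fun i _ => ?_)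
  · have := lam_pos h i
    split_ifs <;> positivity
  · have := lam_pos h i
    positivity
  · have := lam_pos h i
    split_ifs
    · rw [← mul_assoc, ← Real.rpow_add this]; simp
    · simp

/-- pointwise bound for the total error, `p > 2` -/
lemma G_gt_two {l0 p M : ℝ} (h : 0 < l0) (hp : 2 < p) (hM : 0 < M) (r : ℕ → ℝ) (N : ℕ)
    (hr : ∀ i, |r i| ≤ M * lam l0 i) :
    (∑ i ∈ range N, |r i|) ^ p ≤
      4 * cq (p - 2) * (4 * M) ^ (p - 2) * ∑ i ∈ range N, lam l0 i ^ (p - 2) * r i ^ 2 := by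
  set G := ∑ i ∈ range N, |r i| with hG
  set q2 := ∑ i ∈ range N, lam l0 i ^ (p - 2) * r i ^ 2 with hq2
  have hc := cq_pos (by linarith : 0 < p - 2)
  have hq0 : 0 ≤ q2 := sum_nonneg fun i _ => by have := lam_pos h i; positivity
  have hG0 : 0 ≤ G := sum_nonneg fun i _ => abs_nonneg _
  rcases hG0.eq_or_lt with h0 | h0
  · rw [← h0, Real.zero_rpow (by linarith)]; positivity
  set y := G / (4 * M) with hy
  have hy0 : 0 < y := by positivity
  have h1 : G ≤ ∑ i ∈ range N, (if lam l0 i ≤ y then M * lam l0 i else 0) +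
      ∑ i ∈ range N, (if y ≤ lam l0 i then |r i| else 0) := by
    rw [← sum_add_distrib]
    refine sum_le_sum fun i _ => ?_
    have := lam_pos h i
    have := hr i
    have := abs_nonneg (r i)
    split_ifs with h2 h3 h3
    · linarith
    · linarith
    · linarith
    · exact absurd (not_le.mp h2).le h3
  have h2 : ∑ i ∈ range N, (if lam l0 i ≤ y then M * lam l0 i else 0) ≤ G / 2 := by
    have h3 := geo_up h (one_pos) hy0.le N
    have h4 : cq 1 = 2 := by norm_num [cq]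
    simp only [Real.rpow_one, h4] at h3
    have h5 : ∑ i ∈ range N, (if lam l0 i ≤ y then M * lam l0 i else 0) =
        M * ∑ i ∈ range N, (if lam l0 i ≤ y then lam l0 i else 0) := by
      rw [mul_sum]; exact sum_congr rfl fun i _ => by split_ifs <;> simp
    rw [h5]
    refine (mul_le_mul_of_nonneg_left h3 hM.le).trans (le_of_eq ?_)
    rw [hy]; field_simp; ring
  have h3 := cs_part l0 p h r N (fun i => y ≤ lam l0 i)
  have h4 := geo_down h (by linarith : 0 < p - 2) hy0 N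
  rw [neg_sub] at h4
  have h5 : (G / 2) ^ 2 ≤ cq (p - 2) * y ^ (2 - p) * q2 := by
    refine le_trans (pow_le_pow_left₀ (by positivity) (by linarith) 2) (h3.trans ?_)
    exact mul_le_mul_of_nonneg_right h4 hq0
  have h6 : G ^ p = G ^ 2 * G ^ (p - 2) := by
    rw [← Real.rpow_natCast, ← Real.rpow_add h0]; congr 1; push_cast; ring
  have h7 : y ^ (2 - p) * G ^ (p - 2) = (4 * M) ^ (p - 2) := by
    rw [show 2 - p = -(p - 2) by ring, Real.rpow_neg hy0.le, hy,
      Real.div_rpow h0.le (by positivity)]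
    have : 0 < G ^ (p - 2) := by positivity
    field_simp
  have h8 : 0 < G ^ (p - 2) := by positivity
  rw [h6, ← h7]
  nlinarith [mul_le_mul_of_nonneg_right h5 h8.le]

/-- pointwise bound for the total error, `p < 2` -/
lemma G_lt_two {l0 p κ : ℝ} (h : 0 < l0) (hp1 : 1 < p) (hp : p < 2) (hκ : 0 < κ) (r : ℕ → ℝ)
    (N : ℕ) :
    (∑ i ∈ range N, |r i|) ^ p ≤
      4 * cq (2 - p) * κ ^ (2 - p) * ∑ i ∈ range N, lam l0 i ^ (p - 2) * r i ^ 2 +
      2 * κ ^ (1 - p) * ∑ i ∈ range N, lam l0 i ^ (p - 1) * |r i| := by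
  set G := ∑ i ∈ range N, |r i| with hG
  set q2 := ∑ i ∈ range N, lam l0 i ^ (p - 2) * r i ^ 2 with hq2
  set q1 := ∑ i ∈ range N, lam l0 i ^ (p - 1) * |r i| with hq1
  have hc := cq_pos (by linarith : 0 < 2 - p)
  have hq0 : 0 ≤ q2 := sum_nonneg fun i _ => by have := lam_pos h i; positivity
  have hq10 : 0 ≤ q1 := sum_nonneg fun i _ => by have := lam_pos h i; positivity
  have hG0 : 0 ≤ G := sum_nonneg fun i _ => abs_nonneg _
  rcases hG0.eq_or_lt with h0 | h0
  · rw [← h0, Real.zero_rpow (by linarith)]; positivity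
  set y := κ * G with hy
  have hy0 : 0 < y := by positivity
  have h1 : G ≤ ∑ i ∈ range N, (if lam l0 i ≤ y then |r i| else 0) + y ^ (1 - p) * q1 := by
    rw [hq1, mul_sum, ← sum_add_distrib]
    refine sum_le_sum fun i _ => ?_
    have hl := lam_pos h i
    have := abs_nonneg (r i)
    split_ifs with h2
    · have : 0 ≤ y ^ (1 - p) * (lam l0 i ^ (p - 1) * |r i|) := by positivity
      linarith
    · have h3 : y ^ (p - 1) ≤ lam l0 i ^ (p - 1) :=
        Real.rpow_le_rpow hy0.le (not_le.mp h2).le (by linarith)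
      have h4 : y ^ (1 - p) * y ^ (p - 1) = 1 := by rw [← Real.rpow_add hy0]; simp
      have h5 : 0 < y ^ (1 - p) := by positivity
      have h6 : 1 ≤ y ^ (1 - p) * lam l0 i ^ (p - 1) :=
        h4.symm.le.trans (mul_le_mul_of_nonneg_left h3 h5.le)
      nlinarith
  have hA : 0 ≤ 4 * cq (2 - p) * κ ^ (2 - p) * q2 := by positivity
  have hB : 0 ≤ 2 * κ ^ (1 - p) * q1 := by positivity
  rcases le_total (G / 2) (y ^ (1 - p) * q1) with h2 | h2
  · have h6 : G ^ p = G * G ^ (p - 1) := by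
      conv_lhs => rw [show p = 1 + (p - 1) by ring, Real.rpow_add h0, Real.rpow_one]
    have h7 : y ^ (1 - p) * G ^ (p - 1) = κ ^ (1 - p) := by
      rw [hy, Real.mul_rpow hκ.le h0.le, mul_assoc, ← Real.rpow_add h0]; simp
    have h8 : 0 < G ^ (p - 1) := by positivity
    have h9 := mul_le_mul_of_nonneg_right h2 h8.le
    rw [h6]
    have : y ^ (1 - p) * q1 * G ^ (p - 1) = κ ^ (1 - p) * q1 := by rw [← h7]; ring
    nlinarith
  · have h3 := cs_part l0 p h r N (fun i => lam l0 i ≤ y)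
    have h4 := geo_up h (by linarith : 0 < 2 - p) hy0.le N
    have h5 : (G / 2) ^ 2 ≤ cq (2 - p) * y ^ (2 - p) * q2 := by
      refine le_trans (pow_le_pow_left₀ (by positivity) (by linarith) 2) (h3.trans ?_)
      exact mul_le_mul_of_nonneg_right h4 hq0
    have h6 : G ^ p = G ^ 2 * G ^ (p - 2) := by
      rw [← Real.rpow_natCast, ← Real.rpow_add h0]; congr 1; push_cast; ring
    have h7 : y ^ (2 - p) * G ^ (p - 2) = κ ^ (2 - p) := by
      rw [hy, Real.mul_rpow hκ.le h0.le, mul_assoc, ← Real.rpow_add h0]; simp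
    have h8 : 0 < G ^ (p - 2) := by positivity
    have h9 := mul_le_mul_of_nonneg_right h5 h8.le
    have : cq (2 - p) * y ^ (2 - p) * q2 * G ^ (p - 2) = cq (2 - p) * κ ^ (2 - p) * q2 := by
      rw [← h7]; ring
    rw [h6]
    nlinarith

lemma sum_shift_le (f : ℕ → ℝ) (hf : ∀ i, 0 ≤ f i) (n c N : ℕ) (h : c + n ≤ N) :
    ∑ i ∈ range n, f (c + i) ≤ ∑ i ∈ range N, f i := by
  have h1 : ∑ i ∈ range (c + n), f i ≤ ∑ i ∈ range N, f i :=
    sum_le_sum_of_subset_of_nonneg (range_subset_range.mpr h) fun i _ _ => hf i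
  rw [sum_range_add] at h1
  have : 0 ≤ ∑ i ∈ range c, f i := sum_nonneg fun i _ => hf i
  linarith

end Crest.Agent.R232
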