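import Mathlib

/-! Lazy reversible chains on a finite set: entropy decay. -/

namespace Crest.Agent.R232
open Finset

lemma gap_ge {b m : ℝ} (hb : 0 ≤ b) (hm : 0 < m) :
    (√b - √m) ^ 2 ≤ b * Real.log b - b * Real.log m - b + m := by
  rcases hb.eq_or_lt with rfl | hb
  · simp [Real.sq_sqrt hm.le]
  have hsb : 0 < √b := Real.sqrt_pos.mpr hb
  have hsm : 0 < √m := Real.sqrt_pos.mpr hm
  have h1 : Real.log (√m / √b) ≤ √m / √b - 1 := Real.log_le_sub_one_of_pos (by positivity)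
  rw [Real.log_div hsm.ne' hsb.ne', Real.log_sqrt hm.le, Real.log_sqrt hb.le] at h1
  have h2 : b * (√m / √b) = √b * √m := by
    field_simp
    rw [Real.sq_sqrt hb.le]
  have h3 : √b ^ 2 = b := Real.sq_sqrt hb.le
  have h4 : √m ^ 2 = m := Real.sq_sqrt hm.le
  have h5 := mul_le_mul_of_nonneg_left h1 hb.le
  nlinarith

lemma local_gap {Y : Type*} [Fintype Y] (q b : Y → ℝ) (α a m : ℝ) (hq : ∀ y, 0 ≤ q y)
    (hb : ∀ y, 0 ≤ b y) (ha : 0 ≤ a) (hα : ∑ y, q y ≤ α) (hT : 0 < α + ∑ y, q y)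
    (hm : (α + ∑ y, q y) * m = α * a + ∑ y, q y * b y) :
    ∑ y, q y * (√(b y) - √a) ^ 2 ≤
      2 * (α * (a * Real.log a) + ∑ y, q y * (b y * Real.log (b y))
        - (α + ∑ y, q y) * (m * Real.log m)) := by
  have hsq : 0 ≤ ∑ y, q y := sum_nonneg fun y _ => hq y
  have hα0 : 0 ≤ α := hsq.trans hα
  have hqb : 0 ≤ ∑ y, q y * b y := sum_nonneg fun y _ => mul_nonneg (hq y) (hb y)
  have hm0 : 0 ≤ m := by
    by_contra h
    push Not at h
    have : (α + ∑ y, q y) * m < 0 := mul_neg_of_pos_of_neg hT h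
    have : 0 ≤ α * a := mul_nonneg hα0 ha
    linarith
  have key : ∀ (w c : ℝ), 0 ≤ w → 0 ≤ c → (m = 0 → w * c = 0) →
      w * (√c - √m) ^ 2 ≤ w * (c * Real.log c - c * Real.log m - c + m) := by
    intro w c hw hc h0
    rcases hm0.eq_or_lt with h | h
    · rcases mul_eq_zero.mp (h0 h.symm) with h1 | h1
      · simp [h1]
      · simp [h1, ← h]
    · exact mul_le_mul_of_nonneg_left (gap_ge hc h) hw
  have hz : m = 0 → α * a = 0 ∧ ∀ y, q y * b y = 0 := by
    intro h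
    rw [h, mul_zero] at hm
    have h1 : 0 ≤ α * a := mul_nonneg hα0 ha
    refine ⟨by linarith, fun y => ?_⟩
    have h2 : ∑ y, q y * b y = 0 := by linarith
    exact (sum_eq_zero_iff_of_nonneg fun y _ => mul_nonneg (hq y) (hb y)).mp h2 y (mem_univ y)
  have h1 := key α a hα0 ha fun h => (hz h).1
  have h2 : ∑ y, q y * (√(b y) - √m) ^ 2 ≤
      ∑ y, q y * (b y * Real.log (b y) - b y * Real.log m - b y + m) :=
    sum_le_sum fun y _ => key (q y) (b y) (hq y) (hb y) fun h => (hz h).2 y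
  have h3 : ∑ y, q y * (b y * Real.log (b y) - b y * Real.log m - b y + m) =
      ∑ y, q y * (b y * Real.log (b y)) - (∑ y, q y * b y) * Real.log m - ∑ y, q y * b y
        + (∑ y, q y) * m := by
    simp only [sum_mul, ← sum_sub_distrib, ← sum_add_distrib]
    exact sum_congr rfl fun y _ => by ring
  have h4 : ∑ y, q y * (√(b y) - √a) ^ 2 ≤
      2 * ∑ y, q y * (√(b y) - √m) ^ 2 + 2 * ((∑ y, q y) * (√a - √m) ^ 2) := by
    simp only [sum_mul, mul_sum, ← sum_add_distrib]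
    refine sum_le_sum fun y _ => ?_
    have : (√(b y) - √a) ^ 2 ≤ 2 * (√(b y) - √m) ^ 2 + 2 * (√a - √m) ^ 2 := by
      nlinarith [sq_nonneg (√(b y) + √a - 2 * √m)]
    nlinarith [mul_le_mul_of_nonneg_left this (hq y)]
  have h5 : (∑ y, q y) * (√a - √m) ^ 2 ≤ α * (√a - √m) ^ 2 :=
    mul_le_mul_of_nonneg_right hα (sq_nonneg _)
  have h6 : (α + ∑ y, q y) * (m * Real.log m) = (α * a + ∑ y, q y * b y) * Real.log m := by
    rw [← hm]; ring
  rw [h6]
  nlinarith

variable {X : Type*} [Fintype X]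

/-- One step of the lazy chain with symmetric conductances `k` and measure `ν`. -/
noncomputable def stepL (ν : X → ℝ) (k : X → X → ℝ) : (X → ℝ) →ₗ[ℝ] (X → ℝ) where
  toFun f := fun x => f x + (∑ y, k x y * (f y - f x)) / ν x
  map_add' f g := by
    funext x
    simp only [Pi.add_apply]
    have : ∑ y, k x y * (f y + g y - (f x + g x)) =
        ∑ y, k x y * (f y - f x) + ∑ y, k x y * (g y - g x) := by
      rw [← sum_add_distrib]; exact sum_congr rfl fun y _ => by ring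
    rw [this]; ring
  map_smul' c f := by
    funext x
    simp only [Pi.smul_apply, smul_eq_mul, RingHom.id_apply]
    have : ∑ y, k x y * (c * f y - c * f x) = c * ∑ y, k x y * (f y - f x) := by
      rw [mul_sum]; exact sum_congr rfl fun y _ => by ring
    rw [this]; ring

lemma stepL_apply (ν : X → ℝ) (k : X → X → ℝ) (f : X → ℝ) (x : X) :
    stepL ν k f x = f x + (∑ y, k x y * (f y - f x)) / ν x := rfl

lemma dirichlet (ν : X → ℝ) (k : X → X → ℝ) (hν : ∀ x, 0 < ν x) (hk : ∀ x y, k x y = k y x)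
    (f g : X → ℝ) :
    ∑ x, ν x * (f x * (g x - stepL ν k g x)) =
      (∑ x, ∑ y, k x y * ((f x - f y) * (g x - g y))) / 2 := by
  have h1 : ∀ x, ν x * (f x * (g x - stepL ν k g x)) = ∑ y, k x y * (f x * (g x - g y)) := by
    intro x
    rw [stepL_apply]
    have := (hν x).ne'
    have h2 : ∑ y, k x y * (f x * (g x - g y)) = - (f x * ∑ y, k x y * (g y - g x)) := by
      rw [mul_sum, ← sum_neg_distrib]; exact sum_congr rfl fun y _ => by ring
    rw [h2]; field_simp; ring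
  simp only [h1]
  have h3 : ∑ x, ∑ y, k x y * (f x * (g x - g y)) = ∑ x, ∑ y, k x y * (f y * (g y - g x)) := by
    rw [sum_comm]; exact sum_congr rfl fun x _ => sum_congr rfl fun y _ => by rw [hk]
  have h4 : ∑ x, ∑ y, k x y * ((f x - f y) * (g x - g y)) =
      ∑ x, ∑ y, k x y * (f x * (g x - g y)) + ∑ x, ∑ y, k x y * (f y * (g y - g x)) := by
    simp only [← sum_add_distrib]
    exact sum_congr rfl fun x _ => sum_congr rfl fun y _ => by ring
  rw [h4, ← h3]; ring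

lemma stepL_symm (ν : X → ℝ) (k : X → X → ℝ) (hν : ∀ x, 0 < ν x) (hk : ∀ x y, k x y = k y x)
    (f g : X → ℝ) :
    ∑ x, ν x * (f x * stepL ν k g x) = ∑ x, ν x * (stepL ν k f x * g x) := by
  have h1 := dirichlet ν k hν hk f g
  have h2 := dirichlet ν k hν hk g f
  have h3 : ∑ x, ∑ y, k x y * ((f x - f y) * (g x - g y)) =
      ∑ x, ∑ y, k x y * ((g x - g y) * (f x - f y)) :=
    sum_congr rfl fun x _ => sum_congr rfl fun y _ => by ring
  have h4 : ∑ x, ν x * (f x * stepL ν k g x) =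
      ∑ x, ν x * (f x * g x) - ∑ x, ν x * (f x * (g x - stepL ν k g x)) := by
    rw [← sum_sub_distrib]; exact sum_congr rfl fun x _ => by ring
  have h5 : ∑ x, ν x * (stepL ν k f x * g x) =
      ∑ x, ν x * (f x * g x) - ∑ x, ν x * (g x * (f x - stepL ν k f x)) := by
    rw [← sum_sub_distrib]; exact sum_congr rfl fun x _ => by ring
  rw [h4, h5, h1, h2, h3]

lemma stepL_pow_symm (ν : X → ℝ) (k : X → X → ℝ) (hν : ∀ x, 0 < ν x) (hk : ∀ x y, k x y = k y x)
    (m : ℕ) (f g : X → ℝ) :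
    ∑ x, ν x * (f x * (stepL ν k ^ m) g x) = ∑ x, ν x * ((stepL ν k ^ m) f x * g x) := by
  induction m generalizing f g with
  | zero => simp
  | succ m ih =>
    have e1 : (stepL ν k ^ (m + 1)) g = (stepL ν k ^ m) (stepL ν k g) := by
      rw [pow_succ, Module.End.mul_apply]
    have e2 : (stepL ν k ^ (m + 1)) f = stepL ν k ((stepL ν k ^ m) f) := by
      rw [pow_succ', Module.End.mul_apply]
    rw [e1, e2, ih, stepL_symm ν k hν hk]

lemma stepL_mul (ν : X → ℝ) (k : X → X → ℝ) (hν : ∀ x, 0 < ν x) (f : X → ℝ) (x : X) :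
    ν x * stepL ν k f x = (ν x - ∑ y, k x y) * f x + ∑ y, k x y * f y := by
  rw [stepL_apply]
  have := (hν x).ne'
  have h2 : ∑ y, k x y * (f y - f x) = ∑ y, k x y * f y - (∑ y, k x y) * f x := by
    rw [sum_mul, ← sum_sub_distrib]; exact sum_congr rfl fun y _ => by ring
  rw [h2]; field_simp; ring

lemma stepL_nonneg (ν : X → ℝ) (k : X → X → ℝ) (hν : ∀ x, 0 < ν x) (hk0 : ∀ x y, 0 ≤ k x y)
    (hl : ∀ x, 2 * ∑ y, k x y ≤ ν x) (f : X → ℝ) (hf : ∀ x, 0 ≤ f x) (x : X) :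
    0 ≤ stepL ν k f x := by
  have h := stepL_mul ν k hν f x
  have h1 : 0 ≤ ∑ y, k x y := sum_nonneg fun y _ => hk0 x y
  have h2 : 0 ≤ ∑ y, k x y * f y := sum_nonneg fun y _ => mul_nonneg (hk0 x y) (hf y)
  have h3 : 0 ≤ (ν x - ∑ y, k x y) * f x := mul_nonneg (by linarith [hl x]) (hf x)
  exact nonneg_of_mul_nonneg_right (by rw [h]; linarith) (hν x) 

lemma stepL_mass (ν : X → ℝ) (k : X → X → ℝ) (hν : ∀ x, 0 < ν x) (hk : ∀ x y, k x y = k y x)
    (f : X → ℝ) : ∑ x, ν x * stepL ν k f x = ∑ x, ν x * f x := by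
  have h := stepL_symm ν k hν hk (fun _ => 1) f
  simpa [stepL_apply] using h

/-- Entropy. -/
noncomputable def ent (ν f : X → ℝ) : ℝ := ∑ x, ν x * (f x * Real.log (f x))

lemma ent_step (ν : X → ℝ) (k : X → X → ℝ) (hν : ∀ x, 0 < ν x) (hk0 : ∀ x y, 0 ≤ k x y)
    (hk : ∀ x y, k x y = k y x) (hl : ∀ x, 2 * ∑ y, k x y ≤ ν x) (f : X → ℝ) (hf : ∀ x, 0 ≤ f x) :
    ∑ x, ∑ y, k x y * (√(f y) - √(f x)) ^ 2 ≤ 2 * (ent ν f - ent ν (stepL ν k f)) := by
  have h1 : ∀ x, ∑ y, k x y * (√(f y) - √(f x)) ^ 2 ≤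
      2 * ((ν x - ∑ y, k x y) * (f x * Real.log (f x)) + ∑ y, k x y * (f y * Real.log (f y))
        - ν x * (stepL ν k f x * Real.log (stepL ν k f x))) := by
    intro x
    have := local_gap (k x) f (ν x - ∑ y, k x y) (f x) (stepL ν k f x) (hk0 x) hf (hf x)
      (by linarith [hl x]) (by simpa using hν x) (by simpa using stepL_mul ν k hν f x)
    simpa using this
  refine (sum_le_sum fun x _ => h1 x).trans (le_of_eq ?_)
  rw [← mul_sum]
  congr 1
  simp only [sum_sub_distrib, sum_add_distrib, ent, sub_mul]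
  have h3 : ∑ x, ∑ y, k x y * (f y * Real.log (f y)) =
      ∑ x, (∑ y, k x y) * (f x * Real.log (f x)) := by
    rw [sum_comm]
    refine sum_congr rfl fun x _ => ?_
    rw [sum_mul]; exact sum_congr rfl fun y _ => by rw [hk]
  rw [h3]; ring

lemma ent_nonneg (ν f : X → ℝ) (hν : ∀ x, 0 < ν x) (hf : ∀ x, 0 ≤ f x) (h1 : ∑ x, ν x = 1)
    (h2 : ∑ x, ν x * f x = 1) : 0 ≤ ent ν f := by
  have h : ∀ x, ν x * f x - ν x ≤ ν x * (f x * Real.log (f x)) := by
    intro x
    have : f x - 1 ≤ f x * Real.log (f x) := Real.self_sub_one_le_mul_log (hf x)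
    nlinarith [mul_le_mul_of_nonneg_left this (hν x).le]
  have := sum_le_sum fun x (_ : x ∈ univ) => h x
  rw [sum_sub_distrib, h1, h2] at this
  simpa [ent] using this

end Crest.Agent.R232
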