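import Crest.Agent.R232.Disc

/-! Equality cases in convexity and Clarkson inequalities, and a lower bound for isometric
embeddings. -/

namespace Crest.Agent.R232
open Finset MeasureTheory
open scoped ENNReal

lemma mid_lt {q : ℝ} (hq : 1 < q) {s t : ℝ} (h : t ≠ -s) :
    |s - t| ^ q < 2 ^ q * ((|s| ^ q + |t| ^ q) / 2) := by
  have hq0 : 0 < q := by linarith
  by_cases h1 : |s| = |t|
  · rcases abs_eq_abs.mp h1 with rfl | h2
    · have h3 : s ≠ 0 := fun h3 => h (by simp [h3])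
      have h4 : 0 < |s| := abs_pos.mpr h3
      rw [sub_self, abs_zero, Real.zero_rpow hq0.ne']; positivity
    · exact absurd (by linarith) h
  · have h2 := (strictConvexOn_rpow hq).2 (Set.mem_Ici.mpr (abs_nonneg s))
      (Set.mem_Ici.mpr (abs_nonneg t)) h1 (by norm_num : (0 : ℝ) < 1 / 2)
      (by norm_num : (0 : ℝ) < 1 / 2) (by norm_num)
    simp only [smul_eq_mul] at h2
    have h3 : |s - t| ≤ 2 * (1 / 2 * |s| + 1 / 2 * |t|) := by linarith [abs_sub s t]
    have h4 := Real.rpow_le_rpow (abs_nonneg _) h3 hq0.le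
    rw [Real.mul_rpow (by norm_num) (by positivity)] at h4
    refine h4.trans_lt (mul_lt_mul_of_pos_left (by linarith) (by positivity))

lemma opp {κ : Type} [Fintype κ] {q : ℝ} (hq : 1 < q) {u v : κ → ℝ}
    (h : ∑ k, |u k - v k| ^ q = 2 ^ q * ((∑ k, |u k| ^ q + ∑ k, |v k| ^ q) / 2)) (k : κ) :
    v k = -u k := by
  by_contra h1
  have h2 : ∑ k, |u k - v k| ^ q < ∑ k, 2 ^ q * ((|u k| ^ q + |v k| ^ q) / 2) := by
    refine sum_lt_sum (fun k _ => ?_) ⟨k, mem_univ k, mid_lt hq h1⟩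
    by_cases h3 : v k = -u k
    · rw [h3, abs_neg, sub_neg_eq_add, ← two_mul, abs_mul, abs_two,
        Real.mul_rpow (by norm_num) (abs_nonneg _)]
      exact le_of_eq (by ring)
    · exact (mid_lt hq h3).le
  rw [← mul_sum, ← sum_div, sum_add_distrib] at h2
  exact h2.ne h

lemma clarkson_strict {q : ℝ} (hq : 0 < q) {s t : ℝ} (hs : s ≠ 0) (ht : t ≠ 0) :
    (2 < q → 2 * |s| ^ q + 2 * |t| ^ q < |s + t| ^ q + |s - t| ^ q) ∧
      (q < 2 → |s + t| ^ q + |s - t| ^ q < 2 * |s| ^ q + 2 * |t| ^ q) := by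
  have e : ∀ x : ℝ, |x| ^ q = (x ^ 2) ^ (q / 2) := fun x => by
    rw [← sq_abs, ← Real.rpow_two, ← Real.rpow_mul (abs_nonneg _)]; congr 1; ring
  have hne : (s + t) ^ 2 ≠ (s - t) ^ 2 := fun h => mul_ne_zero hs ht (by linarith)
  have e2 : 1 / 2 * (s + t) ^ 2 + 1 / 2 * (s - t) ^ 2 = s ^ 2 + t ^ 2 := by ring
  simp only [e]
  constructor
  · intro h
    have h2 := (strictConvexOn_rpow (by linarith : 1 < q / 2)).2 (Set.mem_Ici.mpr (sq_nonneg _))
      (Set.mem_Ici.mpr (sq_nonneg _)) hne (by norm_num : (0 : ℝ) < 1 / 2)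
      (by norm_num : (0 : ℝ) < 1 / 2) (by norm_num)
    simp only [smul_eq_mul, e2] at h2
    linarith [Real.add_rpow_le_rpow_add (sq_nonneg s) (sq_nonneg t) (by linarith : 1 ≤ q / 2)]
  · intro h
    have h2 := (Real.strictConcaveOn_rpow (by linarith : 0 < q / 2) (by linarith)).2
      (Set.mem_Ici.mpr (sq_nonneg _))
      (Set.mem_Ici.mpr (sq_nonneg _)) hne (by norm_num : (0 : ℝ) < 1 / 2)
      (by norm_num : (0 : ℝ) < 1 / 2) (by norm_num)
    simp only [smul_eq_mul, e2] at h2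
    linarith [Real.rpow_add_le_add_rpow (sq_nonneg s) (sq_nonneg t) (by linarith : 0 ≤ q / 2)
      (by linarith)]

lemma disj {κ : Type} [Fintype κ] {q : ℝ} (hq : 0 < q) (hq2 : q ≠ 2) {u v : κ → ℝ}
    (h : ∑ k, |u k + v k| ^ q + ∑ k, |u k - v k| ^ q = 2 * ∑ k, |u k| ^ q + 2 * ∑ k, |v k| ^ q)
    (k : κ) : u k = 0 ∨ v k = 0 := by
  by_contra h1
  push Not at h1
  have h0 : ∀ s t : ℝ, s = 0 ∨ t = 0 → |s + t| ^ q + |s - t| ^ q = 2 * |s| ^ q + 2 * |t| ^ q := by
    rintro s t (rfl | rfl) <;> simp [hq.ne', two_mul]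
  rw [mul_sum, mul_sum, ← sum_add_distrib, ← sum_add_distrib] at h
  rcases lt_or_gt_of_ne hq2 with h2 | h2
  · refine (sum_lt_sum (fun k _ => ?_)
      ⟨k, mem_univ k, (clarkson_strict hq h1.1 h1.2).2 h2⟩).ne h
    by_cases h3 : u k = 0 ∨ v k = 0
    · exact (h0 _ _ h3).le
    · push Not at h3; exact ((clarkson_strict hq h3.1 h3.2).2 h2).le
  · refine (sum_lt_sum (fun k _ => ?_)
      ⟨k, mem_univ k, (clarkson_strict hq h1.1 h1.2).1 h2⟩).ne h.symm
    by_cases h3 : u k = 0 ∨ v k = 0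
    · exact (h0 _ _ h3).ge
    · push Not at h3; exact ((clarkson_strict hq h3.1 h3.2).1 h2).le

lemma sum_disj {κ : Type} [Fintype κ] {q : ℝ} (hq : 0 < q) {u v : κ → ℝ}
    (h : ∀ k, u k = 0 ∨ v k = 0) : ∑ k, |u k - v k| ^ q = ∑ k, |u k| ^ q + ∑ k, |v k| ^ q := by
  rw [← sum_add_distrib]
  refine sum_congr rfl fun k _ => ?_
  rcases h k with h1 | h1 <;> simp [h1, hq.ne']

/-- Disjointness of supports is preserved and reflected. -/
theorem transfer {α κ ρ : Type} [Fintype α] [Fintype κ] {q σ : ℝ} (hq1 : 1 < q) (hq2 : q ≠ 2)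
    (hσ : 0 < σ) (A : ρ → α → ℝ) (Y : Option (Bool × ρ) → κ → ℝ) (z : Option (Bool × ρ) → α → ℝ)
    (hz0 : ∀ a, z none a = 0) (hz1 : ∀ r a, z (some (true, r)) a = A r a)
    (hz2 : ∀ r a, z (some (false, r)) a = -A r a)
    (h : ∀ i j, ∑ k, |Y i k - Y j k| ^ q = σ * ∑ a, |z i a - z j a| ^ q) :
    ∃ U : ρ → κ → ℝ, (∀ r r', (∀ a, A r a = 0 ∨ A r' a = 0) → ∀ k, U r k = 0 ∨ U r' k = 0) ∧
      ∀ r r', (∀ k, U r k = 0 ∨ U r' k = 0) →
        ∑ a, |A r a - A r' a| ^ q = ∑ a, |A r a| ^ q + ∑ a, |A r' a| ^ q := by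
  have hq0 : 0 < q := by linarith
  set U : ρ → κ → ℝ := fun r k => Y (some (true, r)) k - Y none k with hU
  set U' : ρ → κ → ℝ := fun r k => Y (some (false, r)) k - Y none k with hU'
  have h1 : ∀ r, ∑ k, |U r k| ^ q = σ * ∑ a, |A r a| ^ q := fun r => by
    simpa [hz0, hz1] using h (some (true, r)) none
  have h2 : ∀ r, ∑ k, |U' r k| ^ q = σ * ∑ a, |A r a| ^ q := fun r => by
    simpa [hz0, hz2] using h (some (false, r)) none
  have h3 : ∀ r r', ∑ k, |U r k - U r' k| ^ q = σ * ∑ a, |A r a - A r' a| ^ q := fun r r' => by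
    simpa [hz1, hU] using h (some (true, r)) (some (true, r'))
  have h4 : ∀ r r', ∑ k, |U r k - U' r' k| ^ q = σ * ∑ a, |A r a - -A r' a| ^ q := fun r r' => by
    simpa [hz1, hz2, hU, hU'] using h (some (true, r)) (some (false, r'))
  have h5 : ∀ r k, U' r k = -U r k := fun r => opp hq1 (by
    rw [h4, h1, h2, add_self_div_two, mul_left_comm, mul_sum (a := 2 ^ q)]
    congr 1
    refine sum_congr rfl fun a _ => ?_
    rw [sub_neg_eq_add, ← two_mul, abs_mul, abs_two, Real.mul_rpow (by norm_num) (abs_nonneg _)])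
  refine ⟨U, fun r r' hr => disj hq0 hq2 ?_, fun r r' hr => ?_⟩
  · have h6 := h4 r r'
    simp only [h5, sub_neg_eq_add (U r _)] at h6
    rw [h6, h3, h1, h1, sum_disj hq0 hr, sum_disj hq0 (v := fun a => -A r' a)
      (fun a => by simpa using hr a)]
    simp only [abs_neg]; ring
  · have h6 := sum_disj hq0 hr
    rw [h3, h1, h1, ← mul_add] at h6
    exact mul_left_cancel₀ hσ.ne' h6

theorem grid_bound {κ : Type} [Fintype κ] {q : ℝ} (hq0 : 0 < q) (m : ℕ)
    (A : Bool × Fin m → Fin m × Fin m → ℝ)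
    (hA1 : ∀ i a, A (true, i) a = if a.1 = i then 1 else 0)
    (hA2 : ∀ i a, A (false, i) a = if a.2 = i then 1 else 0) (U : Bool × Fin m → κ → ℝ)
    (h1 : ∀ r r', (∀ a, A r a = 0 ∨ A r' a = 0) → ∀ k, U r k = 0 ∨ U r' k = 0)
    (h2 : ∀ r r', (∀ k, U r k = 0 ∨ U r' k = 0) →
        ∑ a, |A r a - A r' a| ^ q = ∑ a, |A r a| ^ q + ∑ a, |A r' a| ^ q) :
    m ^ 2 ≤ Fintype.card κ := by
  have h3 : ∀ e : Fin m × Fin m, ∃ k, U (true, e.1) k ≠ 0 ∧ U (false, e.2) k ≠ 0 := by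
    intro e
    by_contra h4
    have h5 := h2 (true, e.1) (false, e.2) (fun k => by
      by_contra h6
      push Not at h6
      exact h4 ⟨k, h6⟩)
    rw [← sum_add_distrib] at h5
    refine (sum_lt_sum (fun a _ => ?_) ⟨e, mem_univ e, ?_⟩).ne h5
    · rw [hA1, hA2]; split_ifs <;> simp [hq0.ne']
    · rw [hA1, hA2]; simp [hq0.ne']
  choose f hf using h3
  have h4 : Function.Injective f := by
    intro e e' he
    have k1 : e.1 = e'.1 := by
      by_contra k1
      rcases h1 (true, e.1) (true, e'.1) (fun a => by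
        rw [hA1, hA1]; by_cases k2 : a.1 = e.1
        · right; rw [if_neg (by rw [k2]; exact k1)]
        · left; rw [if_neg k2]) (f e) with k2 | k2
      · exact (hf e).1 k2
      · exact (hf e').1 (he ▸ k2)
    have k2 : e.2 = e'.2 := by
      by_contra k1
      rcases h1 (false, e.2) (false, e'.2) (fun a => by
        rw [hA2, hA2]; by_cases k2 : a.2 = e.2
        · right; rw [if_neg (by rw [k2]; exact k1)]
        · left; rw [if_neg k2]) (f e) with k2 | k2
      · exact (hf e).2 k2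
      · exact (hf e').2 (he ▸ k2)
    exact Prod.ext k1 k2
  simpa [sq] using Fintype.card_le_of_injective f h4

end Crest.Agent.R232
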