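import Crest.Agent.R232.Unif

/-! The family of jumps. -/

namespace Crest.Agent.R232
open Finset

/-- trapezoid -/
noncomputable def trap (l m : ℕ) : ℝ :=
  ∑ i ∈ range l, ((if m ≤ 2 * l + i then 1 else 0) - (if m ≤ i then 1 else 0))

lemma trap_nonneg (l m : ℕ) : 0 ≤ trap l m :=
  sum_nonneg fun i _ => by
    split_ifs with h1 h2 h2
    · norm_num
    · norm_num
    · omega
    · norm_num

lemma trap_le (l m : ℕ) : trap l m ≤ l := by
  have : ∑ _i ∈ range l, (1 : ℝ) = l := by simp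
  rw [← this]
  exact sum_le_sum fun i _ => by split_ifs <;> norm_num

lemma trap_zero (l : ℕ) : trap l 0 = 0 := by simp [trap]

lemma trap_big {l m : ℕ} (h : 3 * l ≤ m) : trap l m = 0 :=
  sum_eq_zero fun i hi => by
    have := mem_range.mp hi
    rw [if_neg (by omega), if_neg (by omega), sub_zero]

lemma trap_mid {l m : ℕ} (h1 : l ≤ m) (h2 : m ≤ 2 * l) : trap l m = l := by
  have : ∑ _i ∈ range l, (1 : ℝ) = l := by simp
  rw [← this]
  exact sum_congr rfl fun i hi => by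
    have := mem_range.mp hi
    rw [if_pos (by omega), if_neg (by omega), sub_zero]

/-- the main term -/
noncomputable def KK (p : ℝ) (l : ℕ) : ℝ := ∑ m ∈ range (3 * l), (trap l (m + 1) / l) ^ p

lemma KK_le {p : ℝ} (hp : 0 ≤ p) {l : ℕ} (hl : 1 ≤ l) : KK p l ≤ 3 * l := by
  have hl0 : (0 : ℝ) < l := by exact_mod_cast hl
  have : ∑ _i ∈ range (3 * l), (1 : ℝ) = 3 * l := by simp
  rw [← this]
  exact sum_le_sum fun m _ => Real.rpow_le_one (div_nonneg (trap_nonneg _ _) hl0.le)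
    ((div_le_one hl0).mpr (trap_le _ _)) hp

lemma le_KK (p : ℝ) {l : ℕ} (hl : 1 ≤ l) : l ≤ KK p l := by
  have hl0 : (0 : ℝ) < l := by exact_mod_cast hl
  have h := sum_shift_le (fun m => (trap l (m + 1) / l) ^ p)
    (fun m => Real.rpow_nonneg (div_nonneg (trap_nonneg _ _) hl0.le) _) l l (3 * l) (by omega)
  refine le_trans (le_of_eq ?_) h
  have : ∑ _i ∈ range l, (1 : ℝ) = l := by simp
  rw [← this]
  refine sum_congr rfl fun i hi => ?_
  have := mem_range.mp hi
  rw [trap_mid (by omega) (by omega)]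
  simp [div_self hl0.ne']

/-- the window function -/
noncomputable def win (l0 : ℝ) (l j : ℕ) (x : ℝ) : ℝ :=
  (∑ i ∈ range l, (tr (lam l0 (j + 2 * l + i)) x - tr (lam l0 (j + i)) x)) / (l * lam l0 j)

lemma win_spec {l0 p : ℝ} (h0 : 0 < l0) (hp : 0 < p) {l I : ℕ} (hl : 1 ≤ l) (x : ℝ)
    (hx : x = 0 ∨ lam l0 (3 * l) < |x|) (hI : |x| ≤ lam l0 I) :
    ∑ j ∈ range I, lam l0 j ^ p * |win l0 l j x| ^ p = KK p l * |x| ^ p ∧
    (∀ j, win l0 l j x ≠ 0 → lam l0 j ≤ |x|) ∧ ∀ j, |win l0 l j x| ≤ 8 ^ l := by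
  have hl0 : (0 : ℝ) < l := by exact_mod_cast hl
  rcases hx with rfl | hx
  · simp [win, tr, Real.zero_rpow hp.ne']
  have hex : ∃ a, |x| ≤ lam l0 a := ⟨I, hI⟩
  set a := Nat.find hex with ha
  have hiff : ∀ i, |x| ≤ lam l0 i ↔ a ≤ i := fun i =>
    ⟨fun h => Nat.find_min' hex h, fun h => (Nat.find_spec hex).trans (lam_mono h0 h)⟩
  have haI : a ≤ I := (hiff I).mp hI
  have ha3 : 3 * l < a := by
    by_contra h
    exact absurd ((hiff _).mpr (not_lt.mp h)) (not_le.mpr hx)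
  have hwin : ∀ j, win l0 l j x = x * trap l (a - j) / (l * lam l0 j) := by
    intro j
    unfold win trap
    rw [mul_sum]
    congr 1
    refine sum_congr rfl fun i _ => ?_
    have e1 : a ≤ j + 2 * l + i ↔ a - j ≤ 2 * l + i := by omega
    have e2 : a ≤ j + i ↔ a - j ≤ i := by omega
    simp only [tr, hiff, e1, e2]
    split_ifs <;> ring
  have habs : ∀ j, |win l0 l j x| = |x| * (trap l (a - j) / l) / lam l0 j := by
    intro j
    have := lam_pos h0 j
    rw [hwin, abs_div, abs_mul, abs_of_nonneg (trap_nonneg _ _),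
      abs_of_pos (by positivity : 0 < l * lam l0 j)]
    field_simp
  refine ⟨?_, fun j hj => ?_, fun j => ?_⟩
  · have e1 : ∀ j, lam l0 j ^ p * |win l0 l j x| ^ p = (trap l (a - j) / l) ^ p * |x| ^ p := by
      intro j
      have h1 := lam_pos h0 j
      have h2 : 0 ≤ trap l (a - j) / l := div_nonneg (trap_nonneg _ _) hl0.le
      rw [habs, Real.div_rpow (by positivity) h1.le, Real.mul_rpow (abs_nonneg _) h2]
      have : 0 < lam l0 j ^ p := by positivity
      field_simp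
    simp only [e1, ← sum_mul]
    congr 1
    obtain ⟨d, rfl⟩ := Nat.exists_eq_add_of_le haI
    rw [sum_range_add]
    have e2 : ∑ i ∈ range d, (trap l (a - (a + i)) / l) ^ p = 0 :=
      sum_eq_zero fun i _ => by
        rw [show a - (a + i) = 0 by omega, trap_zero, zero_div, Real.zero_rpow hp.ne']
    rw [e2, add_zero, ← sum_range_reflect]
    have e3 : ∑ j ∈ range a, (trap l (a - (a - 1 - j)) / l) ^ p =
        ∑ j ∈ range a, (trap l (j + 1) / l) ^ p :=
      sum_congr rfl fun j hj => by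
        have := mem_range.mp hj
        rw [show a - (a - 1 - j) = j + 1 by omega]
    rw [e3]
    obtain ⟨d', hd'⟩ := Nat.exists_eq_add_of_le ha3.le
    rw [hd', sum_range_add]
    have e4 : ∑ i ∈ range d', (trap l (3 * l + i + 1) / l) ^ p = 0 :=
      sum_eq_zero fun i _ => by
        rw [trap_big (by omega), zero_div, Real.zero_rpow hp.ne']
    rw [e4, add_zero, KK]
  · by_contra h
    have h1 : a ≤ j := (hiff j).mp (not_le.mp h).le
    rw [hwin, show a - j = 0 by omega, trap_zero] at hj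
    simp at hj
  · have h1 := lam_pos h0 j
    rw [habs]
    by_cases h : 3 * l ≤ a - j
    · rw [trap_big h]; simp
    · have h2 : |x| ≤ lam l0 (j + 3 * l) := (hiff _).mpr (by omega)
      have h3 : lam l0 (j + 3 * l) = lam l0 j * 8 ^ l := by
        unfold lam; rw [pow_add, pow_mul]; norm_num; ring
      have h4 : trap l (a - j) / l ≤ 1 := (div_le_one hl0).mpr (trap_le _ _)
      have h5 : 0 ≤ trap l (a - j) / l := div_nonneg (trap_nonneg _ _) hl0.le
      rw [div_le_iff₀ h1]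
      nlinarith [abs_nonneg x]

lemma win_err_bound {l0 p : ℝ} (h0 : 0 < l0) (hp : 1 ≤ p) {l : ℕ} (hl : 1 ≤ l) (I : ℕ)
    (r : ℕ → ℝ) :
    ∑ j ∈ range I, lam l0 j ^ p *
      |(∑ i ∈ range l, (r (j + 2 * l + i) - r (j + i))) / (l * lam l0 j)| ^ p ≤
      2 ^ p * (l : ℝ) ^ (1 - p) * (∑ i ∈ range (I + 3 * l), |r i|) ^ p := by
  have hl0 : (0 : ℝ) < l := by exact_mod_cast hl
  set G := ∑ i ∈ range (I + 3 * l), |r i| with hG
  have hG0 : 0 ≤ G := sum_nonneg fun _ _ => abs_nonneg _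
  set g : ℕ → ℝ := fun j => ∑ i ∈ range l, (|r (j + 2 * l + i)| + |r (j + i)|) with hg
  have hg0 : ∀ j, 0 ≤ g j := fun j => sum_nonneg fun _ _ => by positivity
  have hg1 : ∀ j ∈ range I, g j ≤ 2 * G := by
    intro j hj
    have := mem_range.mp hj
    have h1 := sum_shift_le (fun i => |r i|) (fun _ => abs_nonneg _) l (j + 2 * l) (I + 3 * l)
      (by omega)
    have h2 := sum_shift_le (fun i => |r i|) (fun _ => abs_nonneg _) l j (I + 3 * l) (by omega)
    simp only [hg, sum_add_distrib]; linarith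
  have hg2 : ∑ j ∈ range I, g j ≤ l * (2 * G) := by
    simp only [hg]
    rw [sum_comm]
    have : ∑ _i ∈ range l, 2 * G = l * (2 * G) := by simp
    rw [← this]
    refine sum_le_sum fun i hi => ?_
    have := mem_range.mp hi
    have h1 := sum_shift_le (fun i => |r i|) (fun _ => abs_nonneg _) I (2 * l + i) (I + 3 * l)
      (by omega)
    have h2 := sum_shift_le (fun i => |r i|) (fun _ => abs_nonneg _) I i (I + 3 * l) (by omega)
    have e1 : ∀ j, j + 2 * l + i = 2 * l + i + j := fun j => by ring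
    simp only [sum_add_distrib, e1]
    simp only [add_comm i] at h2; linarith
  have h1 : ∀ j ∈ range I, lam l0 j ^ p *
      |(∑ i ∈ range l, (r (j + 2 * l + i) - r (j + i))) / (l * lam l0 j)| ^ p ≤
      (l : ℝ) ^ (-p) * (2 * G) ^ (p - 1) * g j := by
    intro j hj
    have h2 := lam_pos h0 j
    have h3 : |∑ i ∈ range l, (r (j + 2 * l + i) - r (j + i))| ≤ g j :=
      (abs_sum_le_sum_abs _ _).trans (sum_le_sum fun i _ => abs_sub _ _)
    have h4 : |∑ i ∈ range l, (r (j + 2 * l + i) - r (j + i))| ^ p ≤ (2 * G) ^ (p - 1) * g j := by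
      refine (Real.rpow_le_rpow (abs_nonneg _) h3 (by linarith)).trans ?_
      have : g j ^ p = g j ^ (p - 1) * g j := by
        rw [← Real.rpow_add_one' (hg0 j) (by linarith)]; simp
      rw [this]
      exact mul_le_mul_of_nonneg_right (Real.rpow_le_rpow (hg0 j) (hg1 j hj) (by linarith)) (hg0 j)
    rw [abs_div, abs_of_pos (by positivity : 0 < l * lam l0 j),
      Real.div_rpow (abs_nonneg _) (by positivity), Real.mul_rpow hl0.le h2.le,
      Real.rpow_neg hl0.le]
    have h5 : 0 < lam l0 j ^ p := by positivity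
    have h6 : 0 < (l : ℝ) ^ p := by positivity
    calc _ = ((l : ℝ) ^ p)⁻¹ * |∑ i ∈ range l, (r (j + 2 * l + i) - r (j + i))| ^ p := by
          field_simp
      _ ≤ _ := by rw [mul_assoc]; exact mul_le_mul_of_nonneg_left h4 (by positivity)
  refine (sum_le_sum h1).trans ?_
  rw [← mul_sum]
  refine (mul_le_mul_of_nonneg_left hg2 (by positivity)).trans (le_of_eq ?_)
  have e1 : (l : ℝ) ^ (1 - p) = (l : ℝ) ^ (-p) * l := by
    rw [← Real.rpow_add_one hl0.ne']; congr 1; ring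
  have e2 : (2 * G) ^ (p - 1) * (2 * G) = 2 ^ p * G ^ p := by
    rw [← Real.rpow_add_one' (by positivity) (by linarith), ← Real.mul_rpow (by norm_num) hG0]; simp
  rw [e1]
  calc _ = (l : ℝ) ^ (-p) * l * ((2 * G) ^ (p - 1) * (2 * G)) := by ring
    _ = _ := by rw [e2]; ring

lemma win_var_bound {l0 p : ℝ} (h0 : 0 < l0) (hp : 2 ≤ p) {l : ℕ} (hl : 1 ≤ l) (I : ℕ)
    (r : ℕ → ℝ) :
    ∑ j ∈ range I, lam l0 j ^ p *
      ((∑ i ∈ range l, (r (j + 2 * l + i) - r (j + i))) / (l * lam l0 j)) ^ 2 ≤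
      4 * ∑ i ∈ range (I + 3 * l), lam l0 i ^ (p - 2) * r i ^ 2 := by
  have hl0 : (0 : ℝ) < l := by exact_mod_cast hl
  set f : ℕ → ℝ := fun i => lam l0 i ^ (p - 2) * r i ^ 2 with hf
  have hf0 : ∀ i, 0 ≤ f i := fun i => by have := lam_pos h0 i; simp only [hf]; positivity
  have h1 : ∀ j, lam l0 j ^ p *
      ((∑ i ∈ range l, (r (j + 2 * l + i) - r (j + i))) / (l * lam l0 j)) ^ 2 ≤
      (l : ℝ)⁻¹ * ∑ i ∈ range l, 2 * (f (j + 2 * l + i) + f (j + i)) := by
    intro j
    have h2 := lam_pos h0 j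
    have h3 : (∑ i ∈ range l, (r (j + 2 * l + i) - r (j + i))) ^ 2 ≤
        l * ∑ i ∈ range l, (r (j + 2 * l + i) - r (j + i)) ^ 2 := by
      simpa using sq_sum_le_card_mul_sum_sq (s := range l)
        (f := fun i => r (j + 2 * l + i) - r (j + i))
    have h4 : lam l0 j ^ p = lam l0 j ^ (p - 2) * lam l0 j ^ 2 := by
      rw [← Real.rpow_natCast, ← Real.rpow_add h2]; congr 1; push_cast; ring
    have h5 : 0 < lam l0 j ^ (p - 2) := by positivity
    have h6 : lam l0 j ^ (p - 2) * ∑ i ∈ range l, (r (j + 2 * l + i) - r (j + i)) ^ 2 ≤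
        ∑ i ∈ range l, 2 * (f (j + 2 * l + i) + f (j + i)) := by
      rw [mul_sum]
      refine sum_le_sum fun i _ => ?_
      have h7 : lam l0 j ^ (p - 2) ≤ lam l0 (j + 2 * l + i) ^ (p - 2) :=
        Real.rpow_le_rpow h2.le (lam_mono h0 (by omega)) (by linarith)
      have h8 : lam l0 j ^ (p - 2) ≤ lam l0 (j + i) ^ (p - 2) :=
        Real.rpow_le_rpow h2.le (lam_mono h0 (by omega)) (by linarith)
      have h9 : (r (j + 2 * l + i) - r (j + i)) ^ 2 ≤
          2 * (r (j + 2 * l + i) ^ 2 + r (j + i) ^ 2) := by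
        nlinarith [sq_nonneg (r (j + 2 * l + i) + r (j + i))]
      simp only [hf]
      nlinarith [mul_le_mul_of_nonneg_left h9 h5.le,
        mul_le_mul_of_nonneg_right h7 (sq_nonneg (r (j + 2 * l + i))),
        mul_le_mul_of_nonneg_right h8 (sq_nonneg (r (j + i)))]
    calc _ = (l : ℝ)⁻¹ * ((l : ℝ)⁻¹ * lam l0 j ^ (p - 2) *
          (∑ i ∈ range l, (r (j + 2 * l + i) - r (j + i))) ^ 2) := by
          rw [h4]; field_simp
      _ ≤ _ := by
          refine mul_le_mul_of_nonneg_left (le_trans ?_ h6) (by positivity)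
          refine (mul_le_mul_of_nonneg_left h3 (by positivity)).trans (le_of_eq ?_)
          field_simp
  refine (sum_le_sum fun j _ => h1 j).trans ?_
  rw [← mul_sum, sum_comm, inv_mul_le_iff₀ hl0]
  have : ∑ _i ∈ range l, 4 * ∑ i ∈ range (I + 3 * l), f i =
      l * (4 * ∑ i ∈ range (I + 3 * l), f i) := by simp
  rw [← this]
  refine sum_le_sum fun i hi => ?_
  have := mem_range.mp hi
  have h1 := sum_shift_le f hf0 I (2 * l + i) (I + 3 * l) (by omega)
  have h2 := sum_shift_le f hf0 I i (I + 3 * l) (by omega)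
  have e1 : ∀ j, j + 2 * l + i = 2 * l + i + j := fun j => by ring
  simp only [← mul_sum, sum_add_distrib, e1]
  simp only [add_comm i] at h2; linarith

theorem exists_jumps (p : ℝ) (hp1 : 1 < p) (hp2 : p ≠ 2) : ∃ c : ℝ, 1 ≤ c ∧
    ∀ (X Ω : Type) [Fintype X] [Fintype Ω] [Nonempty X] (s : X × X → ℝ) (φ : Ω → X → ℝ),
      (∀ e, ∑ ω, |uu s φ ω e| ^ p ≤ 1) → ∀ l : ℕ, 1 ≤ l →
      ∃ (Θ : Type) (_ : Fintype Θ) (π : Θ → ℝ) (H : Θ → X → ℝ) (τ : Θ → X × X → ℝ),
        (∀ θ, 0 ≤ π θ) ∧ ∀ e : X × X,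
          ∑ θ, π θ * |τ θ e| ^ p = KK p l * ∑ ω, |uu s φ ω e| ^ p ∧
          ∑ θ, (if τ θ e = 0 then 0 else π θ) ≤ c ∧
          ∑ θ, π θ * |(H θ e.1 - H θ e.2) / s e - τ θ e| ^ p ≤
            c * (l : ℝ) ^ (1 - p) * (1 + Real.log (Fintype.card X)) ^ |p - 2| ∧
          (2 < p → ∑ θ, π θ * ((H θ e.1 - H θ e.2) / s e - τ θ e) ^ 2 ≤ c) ∧
          ∀ θ, |(H θ e.1 - H θ e.2) / s e| ≤ c * (1 + Real.log (Fintype.card X)) * 8 ^ l := by
  obtain ⟨c, hc, hU⟩ := exists_unif p hp1 hp2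
  have hq2 : 0 < cq |p - 2| := cq_pos (abs_pos.mpr (sub_ne_zero.mpr hp2))
  have hqp : 0 < cq p := cq_pos (by linarith)
  set c3 : ℝ := 4 * cq |p - 2| * (4 * (c + 1)) ^ |p - 2| * c + 4 * cq |p - 2| * c + 2 * c with hc3
  have hc30 : 0 < c3 := by positivity
  refine ⟨1 + cq p + 2 ^ p * c3 + 4 * c, by linarith [show 0 < 2 ^ p * c3 by positivity], ?_⟩
  intro X Ω _ _ _ s φ hu l hl
  classical
  have hl0 : (0 : ℝ) < l := by exact_mod_cast hl
  set Λ := 1 + Real.log (Fintype.card X) with hΛ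
  have hlog : 0 ≤ Real.log (Fintype.card X) := Real.log_natCast_nonneg _
  have hΛ1 : 1 ≤ Λ := by linarith
  have hu1 : ∀ ω e, |uu s φ ω e| ≤ 1 := by
    intro ω e
    have h1 : |uu s φ ω e| ^ p ≤ 1 :=
      (single_le_sum (f := fun ω => |uu s φ ω e| ^ p) (fun _ _ => by positivity)
        (mem_univ ω)).trans (hu e)
    by_contra h
    exact absurd (Real.one_lt_rpow (not_le.mp h) (by linarith : 0 < p)) (not_lt.mpr h1)
  obtain ⟨l0, h0, hl0u⟩ : ∃ l0 : ℝ, 0 < l0 ∧
      ∀ ω e, uu s φ ω e = 0 ∨ lam l0 (3 * l) < |uu s φ ω e| := by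
    have hev : ∀ q : Ω × (X × X), ∀ᶠ t in nhdsWithin (0 : ℝ) (Set.Ioi 0),
        uu s φ q.1 q.2 = 0 ∨ lam t (3 * l) < |uu s φ q.1 q.2| := by
      intro q
      rcases eq_or_ne (uu s φ q.1 q.2) 0 with h | h
      · exact Filter.Eventually.of_forall fun _ => Or.inl h
      · have hc : Continuous fun t : ℝ => lam t (3 * l) := by unfold lam; fun_prop
        have := hc.tendsto 0
        simp only [lam, zero_mul] at this
        exact ((this.eventually (gt_mem_nhds (abs_pos.mpr h))).filter_mono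
          nhdsWithin_le_nhds).mono fun t ht => Or.inr ht
    obtain ⟨t, h2, h3⟩ := ((Filter.eventually_all.mpr hev).and self_mem_nhdsWithin).exists
    exact ⟨t, h3, fun ω e => h2 (ω, e)⟩
  obtain ⟨I, hI⟩ : ∃ I, 1 ≤ lam l0 I := by
    obtain ⟨I, hI⟩ := pow_unbounded_of_one_lt (l0⁻¹) (by norm_num : (1 : ℝ) < 2)
    refine ⟨I, ?_⟩
    unfold lam
    rw [inv_lt_iff_one_lt_mul₀ h0] at hI
    linarith
  obtain ⟨R, hR, hb⟩ := hU X Ω s φ hu l0 h0 (I + 3 * l)
  have hW := fun ω e => win_spec h0 (by linarith : 0 < p) hl (uu s φ ω e) (hl0u ω e)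
    ((hu1 ω e).trans hI)
  refine ⟨Ω × Fin I, inferInstance, fun θ => lam l0 θ.2 ^ p,
    fun θ x => ∑ e', R x e' * win l0 l θ.2 (uu s φ θ.1 e'),
    fun θ e => win l0 l θ.2 (uu s φ θ.1 e), fun θ => by have := lam_pos h0 θ.2; positivity, ?_⟩
  intro e
  obtain ⟨hb1, hb2, hb3⟩ := hb e
  have hH : ∀ ω (j : ℕ), (∑ e', R e.1 e' * win l0 l j (uu s φ ω e') -
      ∑ e', R e.2 e' * win l0 l j (uu s φ ω e')) / s e =
      ∑ e', pm s R e e' * win l0 l j (uu s φ ω e') := by
    intro ω j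
    rw [← sum_sub_distrib, sum_div]
    exact sum_congr rfl fun e' _ => by simp only [pm]; ring
  have hE : ∀ ω (j : ℕ), ∑ e', pm s R e e' * win l0 l j (uu s φ ω e') - win l0 l j (uu s φ ω e) =
      (∑ i ∈ range l, (erl s φ l0 R ω e (j + 2 * l + i) - erl s φ l0 R ω e (j + i))) /
        (l * lam l0 j) := by
    intro ω j
    simp only [erl, ← err_sub]
    simp only [err, win, sum_sub_distrib (s := range l) (f := fun i => ∑ e', pm s R e e' * _),
      sub_div, mul_div_assoc', ← sum_div, mul_sum]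
    rw [sum_comm]
  have hG : ∑ ω, (∑ i ∈ range (I + 3 * l), |erl s φ l0 R ω e i|) ^ p ≤ c3 * Λ ^ |p - 2| := by
    have hΛp : 0 < Λ ^ |p - 2| := by positivity
    rcases lt_or_gt_of_ne hp2 with hlt | hgt
    · have h1 := fun ω => G_lt_two h0 hp1 hlt (by linarith : 0 < Λ) (erl s φ l0 R ω e) (I + 3 * l)
      refine (sum_le_sum fun ω _ => h1 ω).trans ?_
      rw [sum_add_distrib, ← mul_sum, ← mul_sum]
      rw [abs_of_neg (by linarith), neg_sub] at hq2 hc3 hΛp ⊢
      have h2 : Λ ^ (1 - p) * Λ = Λ ^ (2 - p) := by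
        rw [← Real.rpow_add_one (by linarith)]; congr 1; ring
      have h3 := mul_le_mul_of_nonneg_left hb2
        (by positivity : 0 ≤ 4 * cq (2 - p) * Λ ^ (2 - p))
      have h4 := mul_le_mul_of_nonneg_left hb3 (by positivity : 0 ≤ 2 * Λ ^ (1 - p))
      have h5 : 2 * Λ ^ (1 - p) * (c * Λ) = 2 * c * Λ ^ (2 - p) := by rw [← h2]; ring
      have h6 : 0 ≤ 4 * cq (2 - p) * (4 * (c + 1)) ^ (2 - p) * c * Λ ^ (2 - p) := by positivity
      rw [hc3]; nlinarith
    · have hr : ∀ ω i, |erl s φ l0 R ω e i| ≤ (c + 1) * Λ * lam l0 i := by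
        intro ω i
        have h1 := lam_pos h0 i
        have h2 : |erl s φ l0 R ω e i| ≤ (∑ e', |pm s R e e'|) * lam l0 i + lam l0 i := by
          refine (abs_sub _ _).trans (add_le_add ((abs_sum_le_sum_abs _ _).trans ?_)
            (abs_tr_le h1.le _))
          rw [sum_mul]
          exact sum_le_sum fun e' _ => by
            rw [abs_mul]; exact mul_le_mul_of_nonneg_left (abs_tr_le h1.le _) (abs_nonneg _)
        nlinarith [mul_le_mul_of_nonneg_right hb1 h1.le]
      have h1 := fun ω => G_gt_two h0 hgt (by positivity : 0 < (c + 1) * Λ) (erl s φ l0 R ω e)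
        (I + 3 * l) (hr ω)
      refine (sum_le_sum fun ω _ => h1 ω).trans ?_
      rw [← mul_sum]
      rw [abs_of_pos (by linarith)] at hq2 hc3 hΛp ⊢
      refine (mul_le_mul_of_nonneg_left hb2 (by positivity)).trans ?_
      rw [← mul_assoc 4 (c + 1), Real.mul_rpow (by positivity) (by linarith), hc3]
      have h6 : 0 ≤ (4 * cq (p - 2) * c + 2 * c) * Λ ^ (p - 2) := by positivity
      nlinarith
  have h2p : (0 : ℝ) < 2 ^ p * c3 := by positivity
  simp only [hH]
  simp only [Fintype.sum_prod_type (α₁ := Ω) (α₂ := Fin I)]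
  refine ⟨?_, ?_, ?_, fun hgt => ?_, fun θ => ?_⟩
  · rw [mul_sum]
    refine sum_congr rfl fun ω _ => ?_
    rw [← (hW ω e).1, ← Fin.sum_univ_eq_sum_range
      (fun j => lam l0 j ^ p * |win l0 l j (uu s φ ω e)| ^ p)]
  · have h1 : ∀ ω, ∑ j : Fin I, (if win l0 l j (uu s φ ω e) = 0 then 0 else lam l0 j ^ p) ≤
        cq p * |uu s φ ω e| ^ p := by
      intro ω
      refine le_trans ?_ (geo_up h0 (by linarith : 0 < p) (abs_nonneg (uu s φ ω e)) I)
      rw [← Fin.sum_univ_eq_sum_range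
        (fun j => if lam l0 j ≤ |uu s φ ω e| then lam l0 j ^ p else 0)]
      refine sum_le_sum fun j _ => ?_
      have := lam_pos h0 j
      split_ifs with h2 h3 h3
      · positivity
      · exact le_rfl
      · exact le_rfl
      · exact absurd ((hW ω e).2.1 j h2) h3
    refine (sum_le_sum fun ω _ => h1 ω).trans ?_
    rw [← mul_sum]
    nlinarith [mul_le_mul_of_nonneg_left (hu e) hqp.le]
  · simp only [hE]
    have h1 := fun ω => win_err_bound h0 hp1.le hl I (erl s φ l0 R ω e)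
    have h2 : ∀ ω, ∑ j : Fin I, lam l0 j ^ p * |(∑ i ∈ range l, (erl s φ l0 R ω e (j + 2 * l + i) -
        erl s φ l0 R ω e (j + i))) / (l * lam l0 j)| ^ p ≤ _ := fun ω => by
      rw [Fin.sum_univ_eq_sum_range (fun j => lam l0 j ^ p *
        |(∑ i ∈ range l, (erl s φ l0 R ω e (j + 2 * l + i) -
        erl s φ l0 R ω e (j + i))) / (l * lam l0 j)| ^ p)]
    refine (sum_le_sum fun ω _ => (h2 ω).trans (h1 ω)).trans ?_
    rw [← mul_sum]
    refine (mul_le_mul_of_nonneg_left hG (by positivity)).trans ?_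
    have h3 : 0 ≤ (l : ℝ) ^ (1 - p) * Λ ^ |p - 2| := by positivity
    nlinarith
  · simp only [hE]
    have h1 := fun ω => win_var_bound h0 hgt.le hl I (erl s φ l0 R ω e)
    have h2 : ∀ ω, ∑ j : Fin I, lam l0 j ^ p * ((∑ i ∈ range l, (erl s φ l0 R ω e (j + 2 * l + i) -
        erl s φ l0 R ω e (j + i))) / (l * lam l0 j)) ^ 2 ≤ _ := fun ω => by
      rw [Fin.sum_univ_eq_sum_range (fun j => lam l0 j ^ p *
        ((∑ i ∈ range l, (erl s φ l0 R ω e (j + 2 * l + i) -
        erl s φ l0 R ω e (j + i))) / (l * lam l0 j)) ^ 2)]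
    refine (sum_le_sum fun ω _ => (h2 ω).trans (h1 ω)).trans ?_
    rw [← mul_sum]
    linarith
  · have h1 : |∑ e', pm s R e e' * win l0 l θ.2 (uu s φ θ.1 e')| ≤
        (∑ e', |pm s R e e'|) * 8 ^ l := by
      refine (abs_sum_le_sum_abs _ _).trans ?_
      rw [sum_mul]
      exact sum_le_sum fun e' _ => by
        rw [abs_mul]; exact mul_le_mul_of_nonneg_left ((hW θ.1 e').2.2 _) (abs_nonneg _)
    refine h1.trans (mul_le_mul_of_nonneg_right (hb1.trans ?_) (by positivity))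
    exact mul_le_mul_of_nonneg_right (by linarith) (by linarith)

end Crest.Agent.R232
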