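import Crest.Agent.R232.Flow

/-! The electrical projection and a minimax lemma. -/

namespace Crest.Agent.R232
open Finset

variable {X : Type*} [Fintype X] [DecidableEq X]

lemma exists_normal (b : X × X → ℝ) (e' : X × X) :
    ∃ g : X → ℝ, ∀ f : X → ℝ, ∑ e, b e * (g e.1 - g e.2) * (b e * (f e.1 - f e.2)) =
      b e' * (f e'.1 - f e'.2) := by
  let BL : (X → ℝ) →ₗ[ℝ] EuclideanSpace ℝ (X × X) :=
    { toFun := fun f => WithLp.toLp 2 fun e => b e * (f e.1 - f e.2)
      map_add' := fun f g => by ext e; simp; ring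
      map_smul' := fun c f => by ext e; simp; ring }
  obtain ⟨y, hy, z, hz, hv⟩ := Submodule.exists_add_mem_mem_orthogonal (K := LinearMap.range BL)
    (EuclideanSpace.single e' (1 : ℝ))
  obtain ⟨g, rfl⟩ := hy
  refine ⟨g, fun f => ?_⟩
  have h1 : inner ℝ (BL f) z = 0 := (Submodule.mem_orthogonal _ _).mp hz _ ⟨f, rfl⟩
  have h2 : inner ℝ (BL f) (EuclideanSpace.single e' (1 : ℝ)) = inner ℝ (BL f) (BL g) := by
    rw [hv, inner_add_right, h1, add_zero]
  rw [EuclideanSpace.inner_single_right] at h2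
  simp only [BL, LinearMap.coe_mk, AddHom.coe_mk, PiLp.inner_apply] at h2
  simpa using h2.symm

/-- matrix of the gradient of a potential operator -/
noncomputable def pm (s : X × X → ℝ) (R : X → X × X → ℝ) (e e' : X × X) : ℝ :=
  (R e.1 e' - R e.2 e') / s e

theorem exists_proj (s w : X × X → ℝ) (hw : ∀ e, 0 < w e) (hw1 : ∑ e, w e = 1) :
    ∃ R : X → X × X → ℝ,
      (∀ e e', w e * pm s R e e' = w e' * pm s R e' e) ∧
      (∀ (f : X → ℝ) e, ∑ e', pm s R e e' * ((f e'.1 - f e'.2) / s e') = (f e.1 - f e.2) / s e) ∧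
      (∀ v : X × X → ℝ, ∑ e, w e * (∑ e', pm s R e e' * v e' - v e) ^ 2 ≤ ∑ e, w e * v e ^ 2) ∧
      ∑ e, w e * ∑ e', |pm s R e e'| ≤ 8 * Real.log (Fintype.card X) := by
  set a : X × X → ℝ := fun e => √(w e) with ha
  have ha0 : ∀ e, 0 < a e := fun e => Real.sqrt_pos.mpr (hw e)
  have ha2 : ∀ e, a e ^ 2 = w e := fun e => Real.sq_sqrt (hw e).le
  set b : X × X → ℝ := fun e => a e / s e with hb
  choose g hg using exists_normal b
  set Q : X × X → X × X → ℝ := fun e e' => b e * (g e' e.1 - g e' e.2) with hQ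
  have hQQ : ∀ e e', ∑ e'', Q e'' e' * Q e'' e = Q e' e := fun e e' => hg e' (g e)
  have hQs : ∀ e e', Q e e' = Q e' e := by
    intro e e'
    rw [← hQQ e e', ← hQQ e' e]
    exact sum_congr rfl fun _ _ => mul_comm _ _
  have hpm : ∀ e e', pm s (fun x e' => g e' x * a e') e e' = Q e e' * a e' / a e := by
    intro e e'
    have := (ha0 e).ne'
    simp only [pm, hQ, hb]
    field_simp
  refine ⟨fun x e' => g e' x * a e', ?_, ?_, ?_, ?_⟩
  · intro e e'
    have h1 := (ha0 e).ne'
    have h2 := (ha0 e').ne'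
    rw [hpm, hpm, ← ha2, ← ha2, hQs e e']
    field_simp
  · intro f e
    have h1 := (ha0 e).ne'
    have h2 := hg e f
    have h3 : ∑ e', pm s (fun x e' => g e' x * a e') e e' * ((f e'.1 - f e'.2) / s e') =
        (∑ e', b e' * (g e e'.1 - g e e'.2) * (b e' * (f e'.1 - f e'.2))) / a e := by
      rw [sum_div]
      refine sum_congr rfl fun e' _ => ?_
      rw [hpm, hQs e e']
      simp only [hQ, hb]
      ring
    rw [h3, h2]
    simp only [hb]
    field_simp
  · intro v
    set V : X × X → ℝ := fun e => a e * v e with hV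
    have h1 : ∀ e, w e * (∑ e', pm s (fun x e' => g e' x * a e') e e' * v e' - v e) ^ 2 =
        (∑ e', Q e e' * V e' - V e) ^ 2 := by
      intro e
      have h0 := (ha0 e).ne'
      have h2 : ∑ e', pm s (fun x e' => g e' x * a e') e e' * v e' =
          (∑ e', Q e e' * V e') / a e := by
        rw [sum_div]
        refine sum_congr rfl fun e' _ => ?_
        rw [hpm]; simp only [hV]; ring
      rw [h2, ← ha2]
      simp only [hV]
      field_simp
    have h2 : ∀ e, w e * v e ^ 2 = V e ^ 2 := fun e => by rw [← ha2]; simp only [hV]; ring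
    simp only [h1, h2]
    have h3 : ∑ e, (∑ e', Q e e' * V e') ^ 2 = ∑ e, (∑ e', Q e e' * V e') * V e := by
      have h4 : ∀ e, (∑ e', Q e e' * V e') ^ 2 =
          ∑ e', ∑ e'', V e' * V e'' * (Q e e' * Q e e'') := by
        intro e
        rw [sq, sum_mul_sum]
        exact sum_congr rfl fun _ _ => sum_congr rfl fun _ _ => by ring
      simp only [h4]
      rw [sum_comm]
      refine sum_congr rfl fun e' _ => ?_
      rw [sum_comm, sum_mul]
      refine sum_congr rfl fun e'' _ => ?_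
      rw [← mul_sum, hQQ]; ring
    have h5 : ∑ e, (∑ e', Q e e' * V e' - V e) ^ 2 =
        ∑ e, (∑ e', Q e e' * V e') ^ 2 - 2 * ∑ e, (∑ e', Q e e' * V e') * V e + ∑ e, V e ^ 2 := by
      rw [mul_sum, ← sum_sub_distrib, ← sum_add_distrib]
      exact sum_congr rfl fun _ _ => by ring
    have h6 : 0 ≤ ∑ e, (∑ e', Q e e' * V e') ^ 2 := sum_nonneg fun _ _ => sq_nonneg _
    linarith
  · have h := localization a b (fun e => (ha0 e).ne') (by simp only [ha2, hw1]) g hg
    refine le_trans (le_of_eq ?_) h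
    refine sum_congr rfl fun e _ => ?_
    rw [mul_sum]
    refine sum_congr rfl fun e' _ => ?_
    have h1 := ha0 e
    have h2 := ha0 e'
    rw [hpm, abs_div, abs_mul, abs_of_pos h1, abs_of_pos h2, ← ha2]
    simp only [hQ]
    field_simp

theorem minimax {ι V : Type*} [Fintype ι] [AddCommGroup V] [Module ℝ V] (C : Set V)
    (f : ι → V → ℝ) (hf : ∀ i, ConvexOn ℝ C (f i)) (hC : Convex ℝ C) (hne : C.Nonempty)
    (h : ∀ l : ι → ℝ, (∀ i, 0 ≤ l i) → ∑ i, l i = 1 → ∃ c ∈ C, ∑ i, l i * f i c ≤ 1) :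
    ∃ c ∈ C, ∀ i, f i c ≤ 2 := by
  classical
  by_contra hcon
  set S : Set (ι → ℝ) := {v | ∃ c ∈ C, ∀ i, f i c < v i} with hS
  have hSo : IsOpen S := by
    have : S = ⋃ c ∈ C, ⋂ i, {v : ι → ℝ | f i c < v i} := by
      ext v; simp [hS]
    rw [this]
    exact isOpen_biUnion fun c _ => isOpen_iInter_of_finite fun i =>
      isOpen_lt continuous_const (continuous_apply i)
  have hSc : Convex ℝ S := by
    rintro v ⟨c, hc, hv⟩ v' ⟨c', hc', hv'⟩ α β hα hβ hαβ
    refine ⟨α • c + β • c', hC hc hc' hα hβ hαβ, fun i => ?_⟩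
    have h1 := (hf i).2 hc hc' hα hβ hαβ
    simp only [smul_eq_mul, Pi.add_apply, Pi.smul_apply] at h1 ⊢
    have h2 := hv i
    have h3 := hv' i
    rcases hα.eq_or_lt with rfl | hα'
    · have : β = 1 := by linarith
      subst this; linarith
    · nlinarith [mul_lt_mul_of_pos_left h2 hα', mul_le_mul_of_nonneg_left h3.le hβ]
  have hx : (fun _ => (2 : ℝ)) ∉ S := by
    rintro ⟨c, hc, hv⟩
    exact hcon ⟨c, hc, fun i => (hv i).le⟩
  obtain ⟨φ, hφ⟩ := geometric_hahn_banach_open_point hSc hSo hx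
  set t : ι → ℝ := fun i => - φ (Pi.single i 1) with ht
  have hφv : ∀ v : ι → ℝ, φ v = - ∑ i, t i * v i := by
    intro v
    conv_lhs => rw [pi_eq_sum_univ' v]
    simp only [map_sum, map_smul, smul_eq_mul, ht, ← sum_neg_distrib]
    exact sum_congr rfl fun i _ => by ring
  obtain ⟨c0, hc0⟩ := hne
  have ht0 : ∀ i, 0 ≤ t i := by
    intro i
    by_contra hneg
    push Not at hneg
    set v0 : ι → ℝ := fun j => f j c0 + 1 with hv0
    set r : ℝ := (|φ (fun _ => 2)| + |φ v0| + 1) / (- t i) with hr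
    have hr0 : 0 ≤ r := div_nonneg (by positivity) (by linarith)
    have hmem : v0 + r • Pi.single i 1 ∈ S := by
      refine ⟨c0, hc0, fun j => ?_⟩
      simp only [Pi.add_apply, Pi.smul_apply, smul_eq_mul, hv0, Pi.single_apply]
      split_ifs <;> linarith
    have h1 := hφ _ hmem
    rw [map_add, map_smul, smul_eq_mul] at h1
    have h2 : φ (Pi.single i 1) = - t i := by simp [ht]
    have h3 : r * - t i = |φ (fun _ => 2)| + |φ v0| + 1 := by
      rw [hr]; exact div_mul_cancel₀ _ (by linarith)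
    rw [h2, h3] at h1
    linarith [le_abs_self (φ (fun _ => 2)), neg_abs_le (φ v0)]
  have hT0 : 0 ≤ ∑ i, t i := sum_nonneg fun i _ => ht0 i
  have hT : 0 < ∑ i, t i := by
    rcases hT0.eq_or_lt with h0 | h0
    · have hz : ∀ i, t i = 0 := fun i =>
        (sum_eq_zero_iff_of_nonneg fun i _ => ht0 i).mp h0.symm i (mem_univ i)
      have hmem : (fun j => f j c0 + 1) ∈ S := ⟨c0, hc0, fun j => by linarith⟩
      have h1 := hφ _ hmem
      rw [hφv, hφv] at h1
      simp [hz] at h1
    · exact h0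
  obtain ⟨c, hc, hl⟩ := h (fun i => t i / ∑ j, t j) (fun i => div_nonneg (ht0 i) hT0)
    (by rw [← sum_div, div_self hT.ne'])
  have hmem : (fun j => f j c + 1 / 2) ∈ S := ⟨c, hc, fun j => by linarith⟩
  have h1 := hφ _ hmem
  rw [hφv, hφv] at h1
  have h2 : ∑ i, t i / (∑ j, t j) * f i c = (∑ i, t i * f i c) / ∑ j, t j := by
    rw [sum_div]; exact sum_congr rfl fun i _ => by ring
  rw [h2, div_le_one hT] at hl
  simp only [mul_add, sum_add_distrib, ← sum_mul] at h1
  linarith

end Crest.Agent.R232
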