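import Mathlib

/-! Scalar inequalities for `|x|^p`. -/

namespace Crest.Agent.R232
open Finset

lemma one_add_rpow_le_exp {x p : ℝ} (hx : -1 ≤ x) (hp : 0 ≤ p) :
    (1 + x) ^ p ≤ Real.exp (p * x) := by
  rw [mul_comm, Real.exp_mul]
  exact Real.rpow_le_rpow (by linarith) (by linarith [Real.add_one_le_exp x]) hp

lemma pert {p η : ℝ} (hp : 1 ≤ p) (hη : 0 < η) (hη1 : η ≤ 1) : ∃ C : ℝ, 1 ≤ C ∧
    ∀ x b : ℝ, |(|x + b| ^ p - |x| ^ p)| ≤ η * |x| ^ p + C * |b| ^ p := by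
  set κ := η / (2 * p) with hκ
  have hκ0 : 0 < κ := by positivity
  have hpκ : p * κ = η / 2 := by rw [hκ]; field_simp
  have hκ1 : κ ≤ 1 := by
    rw [hκ, div_le_one (by positivity)]; linarith
  have h1 : (1 + κ) ^ p ≤ 1 + η := by
    refine (one_add_rpow_le_exp (by linarith) (by linarith)).trans ?_
    rw [hpκ]
    have := Real.abs_exp_sub_one_le (x := η / 2) (by rw [abs_of_pos (by positivity)]; linarith)
    rw [abs_of_pos (by positivity : 0 < η / 2)] at this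
    linarith [le_abs_self (Real.exp (η / 2) - 1)]
  have h2 : 1 - η ≤ (1 - κ) ^ p := by
    have := one_add_mul_self_le_rpow_one_add (s := -κ) (by linarith) hp
    rw [← sub_eq_add_neg] at this
    nlinarith
  refine ⟨(1 + κ⁻¹) ^ p, Real.one_le_rpow (by linarith [inv_pos.mpr hκ0]) (by linarith),
    fun x b => ?_⟩
  have hx := abs_nonneg x
  have hb := abs_nonneg b
  have hxp : 0 ≤ |x| ^ p := by positivity
  have hbp : 0 ≤ (1 + κ⁻¹) ^ p * |b| ^ p := by positivity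
  rcases le_total |b| (κ * |x|) with h | h
  · have h3 : |x + b| ≤ (1 + κ) * |x| := by linarith [abs_add_le x b]
    have h4 : (1 - κ) * |x| ≤ |x + b| := by
      have := abs_sub (x + b) b
      rw [add_sub_cancel_right] at this
      linarith
    have h5 := Real.rpow_le_rpow (abs_nonneg _) h3 (by linarith : 0 ≤ p)
    have h6 := Real.rpow_le_rpow (mul_nonneg (by linarith) hx) h4 (by linarith : 0 ≤ p)
    rw [Real.mul_rpow (by linarith) hx] at h5 h6
    rw [abs_le]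
    constructor
    · nlinarith [mul_le_mul_of_nonneg_right h2 hxp]
    · nlinarith [mul_le_mul_of_nonneg_right h1 hxp]
  · have h3 : |x| ≤ κ⁻¹ * |b| := by rw [le_inv_mul_iff₀ hκ0]; exact h
    have h4 : |x + b| ≤ (1 + κ⁻¹) * |b| := by linarith [abs_add_le x b]
    have h4' : |x| ≤ (1 + κ⁻¹) * |b| := by linarith
    have h5 := Real.rpow_le_rpow (abs_nonneg _) h4 (by linarith : 0 ≤ p)
    have h6 := Real.rpow_le_rpow (abs_nonneg _) h4' (by linarith : 0 ≤ p)
    rw [Real.mul_rpow (by positivity) hb] at h5 h6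
    have h7 : 0 ≤ |x + b| ^ p := by positivity
    have h8 : 0 ≤ η * |x| ^ p := by positivity
    rw [abs_le]
    constructor <;> linarith

/-- symmetric second difference -/
noncomputable def DD (p a h : ℝ) : ℝ := (|a + h| ^ p + |a - h| ^ p) / 2 - |a| ^ p

lemma DD_nonneg {p : ℝ} (hp : 1 ≤ p) (a h : ℝ) : 0 ≤ DD p a h := by
  have h1 := (convexOn_rpow hp).2 (Set.mem_Ici.mpr (abs_nonneg (a + h)))
    (Set.mem_Ici.mpr (abs_nonneg (a - h))) (by norm_num : (0 : ℝ) ≤ 1 / 2)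
    (by norm_num : (0 : ℝ) ≤ 1 / 2) (by norm_num)
  simp only [smul_eq_mul] at h1
  have h2 : |a| ≤ 1 / 2 * |a + h| + 1 / 2 * |a - h| := by
    have := abs_add_le (a + h) (a - h)
    rw [show a + h + (a - h) = 2 * a by ring, abs_mul, abs_two] at this
    linarith
  have h3 := Real.rpow_le_rpow (abs_nonneg _) h2 (by linarith : 0 ≤ p)
  unfold DD; linarith

lemma cosh_sub_one_le {y T : ℝ} (hy : |y| ≤ T) :
    Real.cosh y - 1 ≤ Real.exp (T ^ 2 / 2) / 2 * y ^ 2 := by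
  have h1 := Real.cosh_le_exp_half_sq y
  have h2 : y ^ 2 ≤ T ^ 2 := by
    rw [← sq_abs y]; exact pow_le_pow_left₀ (abs_nonneg _) hy 2
  have h3 : Real.exp (y ^ 2 / 2) - 1 ≤ y ^ 2 / 2 * Real.exp (y ^ 2 / 2) := by
    have := Real.add_one_le_exp (-(y ^ 2 / 2))
    have h4 := Real.exp_pos (y ^ 2 / 2)
    have h5 : Real.exp (-(y ^ 2 / 2)) * Real.exp (y ^ 2 / 2) = 1 := by
      rw [← Real.exp_add]; simp
    nlinarith
  have h4 : Real.exp (y ^ 2 / 2) ≤ Real.exp (T ^ 2 / 2) := Real.exp_le_exp.mpr (by linarith)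
  nlinarith [mul_le_mul_of_nonneg_left h4 (by positivity : 0 ≤ y ^ 2 / 2)]

lemma DD_le {p : ℝ} (hp : 1 ≤ p) : ∃ C : ℝ, 1 ≤ C ∧ ∀ a r : ℝ,
    DD p a r ≤ C * |r| ^ p + (if 2 < p then C * |a| ^ (p - 2) * r ^ 2 else 0) := by
  set C1 := Real.exp (p ^ 2 / 2) / 2 * p ^ 2 with hC1
  have hC10 : 0 ≤ C1 := by positivity
  have h3p : (1 : ℝ) ≤ 3 ^ p := Real.one_le_rpow (by norm_num) (by linarith)
  refine ⟨3 ^ p + C1, by linarith, fun a r => ?_⟩
  have hrp : 0 ≤ |r| ^ p := by positivity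
  have hite : 0 ≤ (if 2 < p then (3 ^ p + C1) * |a| ^ (p - 2) * r ^ 2 else 0) := by
    split_ifs <;> positivity
  rcases le_or_gt |a| (2 * |r|) with h | h
  · have h1 : |a + r| ≤ 3 * |r| := by linarith [abs_add_le a r]
    have h2 : |a - r| ≤ 3 * |r| := by linarith [abs_sub a r]
    have h3 := Real.rpow_le_rpow (abs_nonneg _) h1 (by linarith : 0 ≤ p)
    have h4 := Real.rpow_le_rpow (abs_nonneg _) h2 (by linarith : 0 ≤ p)
    rw [Real.mul_rpow (by norm_num) (abs_nonneg _)] at h3 h4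
    have h5 : 0 ≤ |a| ^ p := by positivity
    unfold DD
    nlinarith
  · have ha : 0 < |a| := lt_of_le_of_lt (by positivity) h
    have ha' : a ≠ 0 := abs_pos.mp ha
    set x := r / a with hx
    have hx1 : |x| ≤ 1 / 2 := by
      rw [hx, abs_div, div_le_iff₀ ha]; linarith
    have hx2 := abs_le.mp hx1
    have e1 : |a + r| = |a| * (1 + x) := by
      rw [← abs_of_nonneg (by linarith : 0 ≤ 1 + x), ← abs_mul]; congr 1; rw [hx]; field_simp
    have e2 : |a - r| = |a| * (1 + -x) := by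
      rw [← abs_of_nonneg (by linarith : 0 ≤ 1 + -x), ← abs_mul]; congr 1; rw [hx]; field_simp; ring
    have h1 := one_add_rpow_le_exp (x := x) (by linarith) (by linarith : 0 ≤ p)
    have h2 := one_add_rpow_le_exp (x := -x) (by linarith) (by linarith : 0 ≤ p)
    have h3 := cosh_sub_one_le (y := p * x) (T := p) (by
      rw [abs_mul, abs_of_pos (by linarith : 0 < p)]; nlinarith)
    rw [Real.cosh_eq] at h3
    have hap : 0 < |a| ^ p := by positivity
    have h4 : DD p a r ≤ C1 * (|a| ^ p * x ^ 2) := by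
      unfold DD
      rw [e1, e2, Real.mul_rpow ha.le (by linarith), Real.mul_rpow ha.le (by linarith)]
      rw [mul_neg] at h2
      have : C1 * (|a| ^ p * x ^ 2) = |a| ^ p * (Real.exp (p ^ 2 / 2) / 2 * (p * x) ^ 2) := by
        rw [hC1]; ring
      rw [this]
      nlinarith [mul_le_mul_of_nonneg_left h1 hap.le, mul_le_mul_of_nonneg_left h2 hap.le,
        mul_le_mul_of_nonneg_left h3 hap.le]
    have h5 : |a| ^ p * x ^ 2 = |a| ^ (p - 2) * r ^ 2 := by
      rw [Real.rpow_sub ha, hx, Real.rpow_two, sq_abs]; field_simp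
    rw [h5] at h4
    have h6 : 0 ≤ |a| ^ (p - 2) * r ^ 2 := by positivity
    split_ifs with h7
    · nlinarith
    · rcases eq_or_ne r 0 with rfl | hr
      · simp only [ne_eq, OfNat.ofNat_ne_zero, not_false_eq_true, zero_pow, mul_zero] at h4
        nlinarith
      · have hr0 : 0 < |r| := abs_pos.mpr hr
        have h8 : |a| ^ (p - 2) ≤ |r| ^ (p - 2) :=
          Real.rpow_le_rpow_of_nonpos hr0 (by linarith) (by linarith)
        have h9 : |r| ^ (p - 2) * r ^ 2 = |r| ^ p := by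
          rw [Real.rpow_sub hr0, Real.rpow_two, sq_abs]; field_simp
        have h10 : |a| ^ (p - 2) * r ^ 2 ≤ |r| ^ p := by
          rw [← h9]; exact mul_le_mul_of_nonneg_right h8 (sq_nonneg _)
        nlinarith

lemma rpow_sub_two_le {p ζ : ℝ} (hp : 2 < p) (hζ : 0 < ζ) : ∃ C : ℝ, 0 < C ∧ ∀ a : ℝ,
    |a| ^ (p - 2) ≤ ζ + C * |a| ^ p := by
  set ξ := ζ ^ (p - 2)⁻¹ with hξ
  have hξ0 : 0 < ξ := by positivity
  refine ⟨(ξ ^ 2)⁻¹, by positivity, fun a => ?_⟩
  rcases le_or_gt |a| ξ with h | h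
  · have h1 := Real.rpow_le_rpow (abs_nonneg _) h (by linarith : 0 ≤ p - 2)
    rw [hξ, Real.rpow_inv_rpow hζ.le (by linarith)] at h1
    have : 0 ≤ (ξ ^ 2)⁻¹ * |a| ^ p := by positivity
    linarith
  · have ha : 0 < |a| := hξ0.trans h
    have h1 : |a| ^ (p - 2) = (|a| ^ 2)⁻¹ * |a| ^ p := by
      rw [Real.rpow_sub ha, Real.rpow_two]; field_simp
    have h2 : (|a| ^ 2)⁻¹ ≤ (ξ ^ 2)⁻¹ := inv_anti₀ (by positivity) (pow_le_pow_left₀ hξ0.le h.le 2)
    rw [h1]
    linarith [mul_le_mul_of_nonneg_right h2 (by positivity : 0 ≤ |a| ^ p)]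

lemma add_rpow_le_two {p : ℝ} (hp : 0 ≤ p) {a b z : ℝ} (hz : |z| ≤ |a| + |b|) :
    |z| ^ p ≤ 2 ^ p * (|a| ^ p + |b| ^ p) := by
  have ha : 0 ≤ |a| ^ p := by positivity
  have hb : 0 ≤ |b| ^ p := by positivity
  have h2 : (0 : ℝ) < 2 ^ p := by positivity
  rcases le_total |a| |b| with h | h
  · have := Real.rpow_le_rpow (abs_nonneg _) (by linarith : |z| ≤ 2 * |b|) hp
    rw [Real.mul_rpow (by norm_num) (abs_nonneg _)] at this
    nlinarith
  · have := Real.rpow_le_rpow (abs_nonneg _) (by linarith : |z| ≤ 2 * |a|) hp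
    rw [Real.mul_rpow (by norm_num) (abs_nonneg _)] at this
    nlinarith

/-- The drift of the `p`-th moment. -/
lemma drift {p η c : ℝ} (hp : 1 ≤ p) (hη : 0 < η) (hη1 : η ≤ 1) (hc : 1 ≤ c) :
    ∃ ε C : ℝ, 0 < ε ∧ ε ≤ 1 ∧ 0 < C ∧ ∀ (Θ : Type) [Fintype Θ] (π h τ : Θ → ℝ) (K : ℝ), 1 ≤ K →
      (∀ θ, 0 ≤ π θ) → ∑ θ, π θ * |τ θ| ^ p = K → ∑ θ, (if τ θ = 0 then 0 else π θ) ≤ c →
      ∑ θ, π θ * |h θ - τ θ| ^ p ≤ ε * K → (2 < p → ∑ θ, π θ * (h θ - τ θ) ^ 2 ≤ c) →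
      ∀ a : ℝ, |∑ θ, π θ * DD p a (h θ) - K| ≤ 3 * η * K + C * |a| ^ p := by
  obtain ⟨C1, hC1, h1⟩ := pert hp hη hη1
  obtain ⟨C2, hC2, h2⟩ := DD_le hp
  obtain ⟨C4, hC4, h4⟩ : ∃ C4 : ℝ, 0 < C4 ∧ ∀ a : ℝ,
      (if 2 < p then C2 * |a| ^ (p - 2) * c else 0) ≤ η + C4 * |a| ^ p := by
    by_cases h : 2 < p
    · obtain ⟨C, hC, hC'⟩ := rpow_sub_two_le h (ζ := η / (C2 * c)) (by positivity)
      refine ⟨C2 * c * C, by positivity, fun a => ?_⟩
      rw [if_pos h]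
      have := mul_le_mul_of_nonneg_left (hC' a) (by positivity : 0 ≤ C2 * c)
      have e : C2 * c * (η / (C2 * c) + C * |a| ^ p) = η + C2 * c * C * |a| ^ p := by
        field_simp
      linarith
    · exact ⟨1, one_pos, fun a => by rw [if_neg h]; positivity⟩
  have h2p : (1 : ℝ) ≤ 2 ^ p := Real.one_le_rpow (by norm_num) (by linarith)
  set C5 := C1 * 2 ^ p + C2 with hC5
  have hC51 : 1 ≤ C5 := by nlinarith
  refine ⟨η / C5, (C5 + 1) * c + C4, by positivity, by rw [div_le_one (by linarith)]; linarith,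
    by positivity, ?_⟩
  intro Θ _ π h τ K hK hπ hτ hm hr hv a
  have hap : 0 ≤ |a| ^ p := by positivity
  have key : ∀ θ, |DD p a (h θ) - |τ θ| ^ p| ≤ η * |τ θ| ^ p + C5 * |h θ - τ θ| ^ p +
      (if τ θ = 0 then 0 else (C5 + 1) * |a| ^ p) +
      (if 2 < p then C2 * |a| ^ (p - 2) * (h θ - τ θ) ^ 2 else 0) := by
    intro θ
    have hr0 : 0 ≤ |h θ - τ θ| ^ p := by positivity
    by_cases h0 : τ θ = 0
    · simp only [h0, abs_zero, Real.zero_rpow (by linarith : p ≠ 0), sub_zero, mul_zero, zero_add,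
        if_true, add_zero] at hr0 ⊢
      rw [abs_of_nonneg (DD_nonneg hp _ _)]
      have := h2 a (h θ)
      have h3 : 0 ≤ C1 * 2 ^ p * |h θ| ^ p := by positivity
      rw [hC5]; linarith
    · rw [if_neg h0]
      have h5 := h1 (τ θ) (h θ - τ θ + a)
      have h6 := h1 (τ θ) (h θ - τ θ - a)
      have h7 := add_rpow_le_two (by linarith : 0 ≤ p) (abs_add_le (h θ - τ θ) a)
      have h8 := add_rpow_le_two (by linarith : 0 ≤ p) (abs_sub (h θ - τ θ) a)
      rw [show τ θ + (h θ - τ θ + a) = a + h θ by ring] at h5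
      rw [show τ θ + (h θ - τ θ - a) = -(a - h θ) by ring, abs_neg] at h6
      have h9 : 0 ≤ (if 2 < p then C2 * |a| ^ (p - 2) * (h θ - τ θ) ^ 2 else 0) := by
        split_ifs <;> positivity
      have h10 := mul_le_mul_of_nonneg_left h7 (by linarith : 0 ≤ C1)
      have h11 := mul_le_mul_of_nonneg_left h8 (by linarith : 0 ≤ C1)
      have h12 : 0 ≤ C2 * |h θ - τ θ| ^ p := by positivity
      have h13 : 0 ≤ C2 * |a| ^ p := by positivity
      rw [abs_le] at h5 h6 ⊢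
      unfold DD
      rw [hC5]
      constructor <;> nlinarith
  have e1 : ∑ θ, π θ * DD p a (h θ) - K = ∑ θ, π θ * (DD p a (h θ) - |τ θ| ^ p) := by
    rw [← hτ, ← sum_sub_distrib]; exact sum_congr rfl fun θ _ => by ring
  rw [e1]
  refine (abs_sum_le_sum_abs _ _).trans ?_
  have h5 : ∀ θ, |π θ * (DD p a (h θ) - |τ θ| ^ p)| ≤ η * (π θ * |τ θ| ^ p) +
      C5 * (π θ * |h θ - τ θ| ^ p) + (C5 + 1) * |a| ^ p * (if τ θ = 0 then 0 else π θ) +
      (if 2 < p then C2 * |a| ^ (p - 2) * (π θ * (h θ - τ θ) ^ 2) else 0) := by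
    intro θ
    rw [abs_mul, abs_of_nonneg (hπ θ)]
    refine (mul_le_mul_of_nonneg_left (key θ) (hπ θ)).trans (le_of_eq ?_)
    split_ifs <;> ring
  refine (sum_le_sum fun θ _ => h5 θ).trans ?_
  simp only [sum_add_distrib, ← mul_sum, hτ]
  have h6 : ∑ θ, (if 2 < p then C2 * |a| ^ (p - 2) * (π θ * (h θ - τ θ) ^ 2) else 0) ≤
      (if 2 < p then C2 * |a| ^ (p - 2) * c else 0) := by
    split_ifs with h7
    · rw [← mul_sum]; exact mul_le_mul_of_nonneg_left (hv h7) (by positivity)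
    · simp
  have h7 := h4 a
  have h8 := mul_le_mul_of_nonneg_left hm (by positivity : 0 ≤ (C5 + 1) * |a| ^ p)
  have h9 := mul_le_mul_of_nonneg_left hr (by linarith : 0 ≤ C5)
  have h10 : C5 * (η / C5 * K) = η * K := by field_simp
  nlinarith

end Crest.Agent.R232
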