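import Crest.Agent.R232.Proj
import Crest.Agent.R232.Geo

/-! One projection with uniform bounds, by minimax. -/

namespace Crest.Agent.R232
open Finset

section conv
variable {V : Type*} [AddCommGroup V] [Module ℝ V]

/-- affine functionals -/
def IsAff (g : V → ℝ) : Prop :=
  ∀ x y : V, ∀ α β : ℝ, α + β = 1 → g (α • x + β • y) = α * g x + β * g y

lemma IsAff.convexOn_comp {g : V → ℝ} (hg : IsAff g) {F : ℝ → ℝ} (hF : ConvexOn ℝ Set.univ F) :
    ConvexOn ℝ Set.univ fun x => F (g x) := by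
  refine ⟨convex_univ, fun x _ y _ α β hα hβ hαβ => ?_⟩
  simp only
  rw [hg x y α β hαβ]
  exact hF.2 (Set.mem_univ _) (Set.mem_univ _) hα hβ hαβ

lemma convexOn_fsum {ι : Type*} (t : Finset ι) (f : ι → V → ℝ)
    (hf : ∀ i ∈ t, ConvexOn ℝ Set.univ (f i)) :
    ConvexOn ℝ Set.univ fun x => ∑ i ∈ t, f i x := by
  refine ⟨convex_univ, fun x _ y _ α β hα hβ hαβ => ?_⟩
  simp only [smul_eq_mul, mul_sum, ← sum_add_distrib]
  exact sum_le_sum fun i hi => (hf i hi).2 (Set.mem_univ _) (Set.mem_univ _) hα hβ hαβ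

lemma convexOn_cmul {f : V → ℝ} {c : ℝ} (hc : 0 ≤ c) (hf : ConvexOn ℝ Set.univ f) :
    ConvexOn ℝ Set.univ fun x => c * f x := hf.smul hc

lemma convexOn_abs' : ConvexOn ℝ (Set.univ : Set ℝ) fun x : ℝ => |x| := by
  exact convexOn_univ_norm (E := ℝ)

lemma convexOn_sq' : ConvexOn ℝ (Set.univ : Set ℝ) fun x : ℝ => x ^ 2 :=
  Even.convexOn_pow (by norm_num)

end conv

variable {X Ω : Type*} [Fintype X] [Fintype Ω]

/-- normalised increments -/
noncomputable def uu (s : X × X → ℝ) (φ : Ω → X → ℝ) (ω : Ω) (e : X × X) : ℝ :=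
  (φ ω e.1 - φ ω e.2) / s e

/-- `(P - I) v` -/
noncomputable def err (s : X × X → ℝ) (R : X → X × X → ℝ) (v : X × X → ℝ) (e : X × X) : ℝ :=
  ∑ e', pm s R e e' * v e' - v e

omit [Fintype X] in
lemma isAff_pm (s : X × X → ℝ) (e e' : X × X) : IsAff fun R : X → X × X → ℝ => pm s R e e' := by
  intro R R' α β _
  simp only [pm, Pi.add_apply, Pi.smul_apply, smul_eq_mul]
  ring

lemma isAff_err (s v : X × X → ℝ) (e : X × X) : IsAff fun R : X → X × X → ℝ => err s R v e := by
  intro R R' α β h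
  simp only [err, isAff_pm s e _ R R' α β h, add_mul, sum_add_distrib, mul_assoc, ← mul_sum]
  have : v e = α * v e + β * v e := by rw [← add_mul, h, one_mul]
  linarith

lemma err_sub (s : X × X → ℝ) (R : X → X × X → ℝ) (v v' : X × X → ℝ) (e : X × X) :
    err s R (fun e => v e - v' e) e = err s R v e - err s R v' e := by
  simp only [err, mul_sub, sum_sub_distrib]; ring

/-- error at level `i` -/
noncomputable def erl (s : X × X → ℝ) (φ : Ω → X → ℝ) (l0 : ℝ) (R : X → X × X → ℝ) (ω : Ω)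
    (e : X × X) (i : ℕ) : ℝ :=
  err s R (fun e' => tr (lam l0 i) (uu s φ ω e')) e

theorem exists_unif (p : ℝ) (hp1 : 1 < p) (hp2 : p ≠ 2) : ∃ c : ℝ, 0 < c ∧
    ∀ (X Ω : Type) [Fintype X] [Fintype Ω] [Nonempty X] (s : X × X → ℝ) (φ : Ω → X → ℝ),
      (∀ e, ∑ ω, |uu s φ ω e| ^ p ≤ 1) → ∀ (l0 : ℝ), 0 < l0 → ∀ N : ℕ,
      ∃ R : X → X × X → ℝ, (∀ ω e, err s R (uu s φ ω) e = 0) ∧ ∀ e,
        ∑ e', |pm s R e e'| ≤ c * (1 + Real.log (Fintype.card X)) ∧
        ∑ ω, ∑ i ∈ range N, lam l0 i ^ (p - 2) * erl s φ l0 R ω e i ^ 2 ≤ c ∧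
        ∑ ω, ∑ i ∈ range N, lam l0 i ^ (p - 1) * |erl s φ l0 R ω e i| ≤
          c * (1 + Real.log (Fintype.card X)) := by
  set c2 := cq |p - 2| with hc2
  set c1 := cq (p - 1) with hc1
  have hc20 : 0 < c2 := cq_pos (abs_pos.mpr (sub_ne_zero.mpr hp2))
  have hc10 : 0 < c1 := cq_pos (by linarith)
  set c0 := 2 * (8 + c2 + 9 * c1) with hc0
  have hc00 : 0 < c0 := by positivity
  refine ⟨2 * c0, by positivity, ?_⟩
  intro X Ω _ _ _ s φ hu l0 hl0 N
  classical
  set Λ := 1 + Real.log (Fintype.card X) with hΛ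
  have hlog : 0 ≤ Real.log (Fintype.card X) := Real.log_natCast_nonneg _
  have hΛ0 : 0 < Λ := by linarith
  set ρ : X × X → (X → X × X → ℝ) → ℝ := fun e R => ∑ e', |pm s R e e'| with hρ
  set Q2 : X × X → (X → X × X → ℝ) → ℝ := fun e R =>
    ∑ ω, ∑ i ∈ range N, lam l0 i ^ (p - 2) * erl s φ l0 R ω e i ^ 2 with hQ2
  set Q1 : X × X → (X → X × X → ℝ) → ℝ := fun e R =>
    ∑ ω, ∑ i ∈ range N, lam l0 i ^ (p - 1) * |erl s φ l0 R ω e i| with hQ1
  have hρ0 : ∀ e R, 0 ≤ ρ e R := fun e R => sum_nonneg fun _ _ => abs_nonneg _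
  have hQ20 : ∀ e R, 0 ≤ Q2 e R := fun e R => sum_nonneg fun _ _ => sum_nonneg fun i _ => by
    have := lam_pos hl0 i; positivity
  have hQ10 : ∀ e R, 0 ≤ Q1 e R := fun e R => sum_nonneg fun _ _ => sum_nonneg fun i _ => by
    have := lam_pos hl0 i; positivity
  set C : Set (X → X × X → ℝ) := {R | ∀ ω e, err s R (uu s φ ω) e = 0} with hC
  have hCc : Convex ℝ C := by
    intro R hR R' hR' α β _ _ h ω e
    have := isAff_err s (uu s φ ω) e R R' α β h
    simp only at this
    rw [this, hR ω e, hR' ω e]; simp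
  set f : X × X → (X → X × X → ℝ) → ℝ := fun e R =>
    c0⁻¹ * (Λ⁻¹ * ρ e R + Q2 e R + Λ⁻¹ * Q1 e R) with hf
  have hfc : ∀ e, ConvexOn ℝ C (f e) := by
    intro e
    refine ConvexOn.subset (t := Set.univ) ?_ (Set.subset_univ _) hCc
    refine convexOn_cmul (by positivity) (ConvexOn.add (ConvexOn.add ?_ ?_) ?_)
    · exact convexOn_cmul (by positivity) (convexOn_fsum _ _ fun e' _ =>
        (isAff_pm s e e').convexOn_comp convexOn_abs')
    · exact convexOn_fsum _ _ fun ω _ => convexOn_fsum _ _ fun i _ =>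
        convexOn_cmul (by have := lam_pos hl0 i; positivity)
          ((isAff_err s _ e).convexOn_comp convexOn_sq')
    · exact convexOn_cmul (by positivity) (convexOn_fsum _ _ fun ω _ =>
        convexOn_fsum _ _ fun i _ => convexOn_cmul (by have := lam_pos hl0 i; positivity)
          ((isAff_err s _ e).convexOn_comp convexOn_abs'))
  have hcard : (0 : ℝ) < Fintype.card (X × X) := by exact_mod_cast Fintype.card_pos
  have havg : ∀ w : X × X → ℝ, (∀ e, 0 < w e) → ∑ e, w e = 1 →
      ∃ R ∈ C, ∑ e, w e * f e R ≤ 1 / 2 := by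
    intro w hw hw1
    obtain ⟨R, hsym, hfix, hcon, hrow⟩ := exists_proj s w hw hw1
    have hRC : R ∈ C := fun ω e => by
      simp only [err, uu]; rw [hfix (φ ω) e, sub_self]
    refine ⟨R, hRC, ?_⟩
    have hflip : ∀ ω e i, erl s φ l0 R ω e i =
        - err s R (fun e' => uu s φ ω e' - tr (lam l0 i) (uu s φ ω e')) e := by
      intro ω e i
      rw [err_sub, hRC ω e, erl]; ring
    have hswap : ∀ F : Ω → X × X → ℕ → ℝ, ∑ e, w e * ∑ ω, ∑ i ∈ range N, F ω e i =
        ∑ ω, ∑ i ∈ range N, ∑ e, w e * F ω e i := by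
      intro F
      simp only [mul_sum]
      rw [sum_comm]
      exact sum_congr rfl fun ω _ => sum_comm
    have hfin : ∀ (W : X × X → ℝ) (c : ℝ) (F : Ω → X × X → ℕ → ℝ), 0 ≤ c → (∀ e, 0 ≤ W e) →
        (∀ ω e, ∑ i ∈ range N, F ω e i ≤ c * |uu s φ ω e| ^ p) →
        ∑ ω, ∑ i ∈ range N, ∑ e, W e * F ω e i ≤ c * ∑ e, W e := by
      intro W c F hc hW hF
      have e1 : ∑ ω, ∑ i ∈ range N, ∑ e, W e * F ω e i =
          ∑ e, W e * ∑ ω, ∑ i ∈ range N, F ω e i := by
        simp only [mul_sum]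
        rw [sum_comm (s := univ (α := X × X))]
        exact sum_congr rfl fun ω _ => sum_comm
      rw [e1, mul_sum]
      refine sum_le_sum fun e _ => ?_
      rw [mul_comm c]
      refine mul_le_mul_of_nonneg_left ((sum_le_sum fun ω _ => hF ω e).trans ?_) (hW e)
      rw [← mul_sum]
      simpa using mul_le_mul_of_nonneg_left (hu e) hc
    have h2 : ∑ e, w e * Q2 e R ≤ c2 := by
      simp only [hQ2]
      rw [hswap]
      rcases lt_or_gt_of_ne hp2 with hlt | hgt
      · have := hfin w c2 (fun ω e i => lam l0 i ^ (p - 2) * tr (lam l0 i) (uu s φ ω e) ^ 2)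
          hc20.le (fun e => (hw e).le) (fun ω e => by
            rw [hc2, abs_of_neg (by linarith), neg_sub]
            exact tr_sq_sum hl0 (by linarith) hlt _ N)
        rw [hw1, mul_one] at this
        refine le_trans (sum_le_sum fun ω _ => sum_le_sum fun i _ => ?_) this
        have h3 := hcon (fun e' => tr (lam l0 i) (uu s φ ω e'))
        have h4 : 0 ≤ lam l0 i ^ (p - 2) := by have := lam_pos hl0 i; positivity
        have h5 := mul_le_mul_of_nonneg_left h3 h4
        simp only [mul_sum] at h5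
        refine le_trans (le_of_eq ?_) (h5.trans (le_of_eq ?_))
        · exact sum_congr rfl fun e _ => by simp only [erl, err]; ring
        · exact sum_congr rfl fun e _ => by ring
      · have := hfin w c2 (fun ω e i => lam l0 i ^ (p - 2) *
          (uu s φ ω e - tr (lam l0 i) (uu s φ ω e)) ^ 2)
          hc20.le (fun e => (hw e).le) (fun ω e => by
            rw [hc2, abs_of_pos (by linarith)]
            exact ex_sq_sum hl0 hgt _ N)
        rw [hw1, mul_one] at this
        refine le_trans (sum_le_sum fun ω _ => sum_le_sum fun i _ => ?_) this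
        have h3 := hcon (fun e' => uu s φ ω e' - tr (lam l0 i) (uu s φ ω e'))
        have h4 : 0 ≤ lam l0 i ^ (p - 2) := by have := lam_pos hl0 i; positivity
        have h5 := mul_le_mul_of_nonneg_left h3 h4
        simp only [mul_sum] at h5
        refine le_trans (le_of_eq ?_) (h5.trans (le_of_eq ?_))
        · exact sum_congr rfl fun e _ => by rw [hflip]; simp only [err]; ring
        · exact sum_congr rfl fun e _ => by ring
    have hL1 : ∀ v : X × X → ℝ, ∑ e, w e * |err s R v e| ≤ ∑ e, w e * (ρ e R + 1) * |v e| := by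
      intro v
      have h3 : ∀ e, w e * |err s R v e| ≤
          ∑ e', w e' * |pm s R e' e| * |v e'| + w e * |v e| := by
        intro e
        have h4 : |err s R v e| ≤ ∑ e', |pm s R e e'| * |v e'| + |v e| := by
          refine (abs_sub _ _).trans (add_le_add ((abs_sum_le_sum_abs _ _).trans
            (le_of_eq (sum_congr rfl fun e' _ => abs_mul _ _))) le_rfl)
        refine (mul_le_mul_of_nonneg_left h4 (hw e).le).trans (le_of_eq ?_)
        rw [mul_add, mul_sum]
        congr 1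
        refine sum_congr rfl fun e' _ => ?_
        have h5 := congrArg abs (hsym e e')
        rw [abs_mul, abs_mul, abs_of_pos (hw e), abs_of_pos (hw e')] at h5
        rw [← mul_assoc, h5]
      refine (sum_le_sum fun e _ => h3 e).trans (le_of_eq ?_)
      rw [sum_add_distrib, sum_comm, ← sum_add_distrib]
      refine sum_congr rfl fun e _ => ?_
      simp only [hρ, ← sum_mul, ← mul_sum]
      ring
    have h1 : ∑ e, w e * Q1 e R ≤ c1 * (9 * Λ) := by
      simp only [hQ1]
      rw [hswap]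
      have := hfin (fun e => w e * (ρ e R + 1)) c1 (fun ω e i => lam l0 i ^ (p - 1) *
          |uu s φ ω e - tr (lam l0 i) (uu s φ ω e)|)
          hc10.le (fun e => by have := hw e; have := hρ0 e R; positivity)
          (fun ω e => ex_abs_sum hl0 hp1 _ N)
      have h6 : ∑ e, w e * (ρ e R + 1) ≤ 9 * Λ := by
        simp only [mul_add, sum_add_distrib, mul_one, hw1]
        simp only [hρ]
        linarith
      refine le_trans (sum_le_sum fun ω _ => sum_le_sum fun i _ => ?_)
        (this.trans (mul_le_mul_of_nonneg_left h6 hc10.le))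
      have h3 := hL1 (fun e' => uu s φ ω e' - tr (lam l0 i) (uu s φ ω e'))
      have h4 : 0 ≤ lam l0 i ^ (p - 1) := by have := lam_pos hl0 i; positivity
      have h5 := mul_le_mul_of_nonneg_left h3 h4
      simp only [mul_sum] at h5
      refine le_trans (le_of_eq ?_) (h5.trans (le_of_eq ?_))
      · exact sum_congr rfl fun e _ => by rw [hflip, abs_neg]; ring
      · exact sum_congr rfl fun e _ => by ring
    have h0 : ∑ e, w e * ρ e R ≤ 8 * Λ := by
      simp only [hρ]; linarith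
    have e1 : ∑ e, w e * f e R = c0⁻¹ * (Λ⁻¹ * ∑ e, w e * ρ e R + ∑ e, w e * Q2 e R +
        Λ⁻¹ * ∑ e, w e * Q1 e R) := by
      simp only [hf, mul_sum, ← sum_add_distrib]
      exact sum_congr rfl fun e _ => by ring
    have e2 : Λ⁻¹ * ∑ e, w e * ρ e R ≤ 8 := by
      rw [inv_mul_le_iff₀ hΛ0]; linarith
    have e3 : Λ⁻¹ * ∑ e, w e * Q1 e R ≤ 9 * c1 := by
      rw [inv_mul_le_iff₀ hΛ0]; linarith
    rw [e1, inv_mul_le_iff₀ hc00, hc0]
    linarith
  have hf0 : ∀ e R, 0 ≤ f e R := fun e R => by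
    have := hρ0 e R; have := hQ20 e R; have := hQ10 e R
    simp only [hf]; positivity
  have hunif : ∑ _e : X × X, (Fintype.card (X × X) : ℝ)⁻¹ = 1 := by
    simp only [sum_const, card_univ, nsmul_eq_mul]; exact mul_inv_cancel₀ hcard.ne'
  obtain ⟨R, hR, hfR⟩ := minimax C f hfc hCc
    (by obtain ⟨R, hR, _⟩ := havg (fun _ => (Fintype.card (X × X) : ℝ)⁻¹)
          (fun _ => by positivity) hunif
        exact ⟨R, hR⟩)
    (by intro l hl hl1
        obtain ⟨R, hR, h⟩ := havg (fun e => (l e + (Fintype.card (X × X) : ℝ)⁻¹) / 2)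
          (fun e => by have := hl e; positivity)
          (by rw [← sum_div, sum_add_distrib, hl1, hunif]; norm_num)
        refine ⟨R, hR, ?_⟩
        have : ∑ e, l e * f e R ≤ 2 * ∑ e, (l e + (Fintype.card (X × X) : ℝ)⁻¹) / 2 * f e R := by
          rw [mul_sum]
          refine sum_le_sum fun e _ => ?_
          have h1 : 0 ≤ (Fintype.card (X × X) : ℝ)⁻¹ * f e R := mul_nonneg (by positivity) (hf0 e R)
          nlinarith
        linarith)
  refine ⟨R, hR, fun e => ?_⟩
  have h := hfR e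
  simp only [hf] at h
  rw [inv_mul_le_iff₀ hc00] at h
  have a1 : 0 ≤ Λ⁻¹ * ρ e R := mul_nonneg (by positivity) (hρ0 e R)
  have a2 := hQ20 e R
  have a3 : 0 ≤ Λ⁻¹ * Q1 e R := mul_nonneg (by positivity) (hQ10 e R)
  refine ⟨?_, by simp only [hQ2] at h a2 ⊢; linarith, ?_⟩
  · have : Λ⁻¹ * ρ e R ≤ 2 * c0 := by linarith
    rw [inv_mul_le_iff₀ hΛ0] at this
    simp only [hρ] at this; linarith
  · have : Λ⁻¹ * Q1 e R ≤ 2 * c0 := by linarith
    rw [inv_mul_le_iff₀ hΛ0] at this
    simp only [hQ1] at this; linarith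

end Crest.Agent.R232
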